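import Vale.Agent.P181.R2.H959.FMul

set_option autoImplicit false

/-!
The kernel of the Foulkes-Howe map in terms of values at products of linear forms; it is an ideal.
-/

open scoped TensorProduct

namespace Vale.Agent.P181.Z463

open Vale.Agent.P181 Vale.Agent.P181.H280 Vale.Agent.P181.H54 Vale.Agent.P181.FR

universe u

section Gen

variable {V : Type u} [AddCommGroup V] [Module ℂ V] [FiniteDimensional ℂ V]

omit [FiniteDimensional ℂ V] in
lemma symEval_const_eq (a : ℕ) (ξ : Module.Dual ℂ V) (y : Sym[ℂ]^a V) :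
    symEval (fun _ : Fin a => ξ) y =
      (Fintype.card (Equiv.Perm (Fin a)) : ℂ) * evalPow a ξ y := by
  have e : symEval (fun _ : Fin a => ξ) =
      (Fintype.card (Equiv.Perm (Fin a)) : ℂ) • evalPow a ξ := by
    apply sym_hom_ext
    intro v
    rw [symEval_const_tprod, LinearMap.smul_apply, evalPow_tprod, smul_eq_mul]
  rw [e, LinearMap.smul_apply, smul_eq_mul]

lemma span_evalPow (a : ℕ) : Submodule.span ℂ (Set.range (fun ξ : Module.Dual ℂ V =>
    (evalPow a ξ : (Sym[ℂ]^a V) →ₗ[ℂ] ℂ))) =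
      (⊤ : Submodule ℂ (Module.Dual ℂ (Sym[ℂ]^a V))) := by
  set W := Submodule.span ℂ (Set.range (fun ξ : Module.Dual ℂ V =>
    (evalPow a ξ : (Sym[ℂ]^a V) →ₗ[ℂ] ℂ))) with hW
  have h1 : W.dualCoannihilator = ⊥ := by
    rw [eq_bot_iff]
    intro y hy
    rw [Submodule.mem_dualCoannihilator] at hy
    rw [Submodule.mem_bot]
    apply pv_inj y
    intro φ
    rw [symEval_const_eq, hy _ (Submodule.subset_span ⟨φ, rfl⟩), mul_zero]
  have h2 := Subspace.dualCoannihilator_dualAnnihilator_eq (W := W)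
  rw [h1] at h2
  rw [← h2]
  exact Submodule.dualAnnihilator_bot

lemma eval_foulkesHowe (a b : ℕ) (x : Sym[ℂ]^a (Sym[ℂ]^b V)) (ξ : Fin b → Module.Dual ℂ V) :
    (Fintype.card (Equiv.Perm (Fin a)) : ℂ) *
      symEval (fun j => evalPow a (ξ j)) (foulkesHowe a b V x) =
    (Fintype.card (Equiv.Perm (Fin b)) : ℂ) * symEval (fun _ : Fin a => symEval ξ) x := by
  have e : (Fintype.card (Equiv.Perm (Fin a)) : ℂ) •
      (symEval (fun j => evalPow a (ξ j)) ∘ₗ foulkesHowe a b V) =
      (Fintype.card (Equiv.Perm (Fin b)) : ℂ) • symEval (fun _ : Fin a => symEval ξ) := by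
    apply pure_hom_ext
    intro v
    rw [LinearMap.smul_apply, LinearMap.smul_apply, LinearMap.comp_apply,
      symEval_foulkesHowe, symEval_const_tprod, smul_eq_mul, smul_eq_mul]
    simp only [symEval_tprod, ryser_prod]
    ring
  have h1 := LinearMap.congr_fun e x
  rw [LinearMap.smul_apply, LinearMap.smul_apply, LinearMap.comp_apply, smul_eq_mul,
    smul_eq_mul] at h1
  exact h1

/-- The kernel of the Foulkes-Howe map: the elements vanishing at products of linear forms. -/
theorem foulkesHowe_eq_zero_iff (a b : ℕ) (x : Sym[ℂ]^a (Sym[ℂ]^b V)) :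
    foulkesHowe a b V x = 0 ↔
      ∀ ξ : Fin b → Module.Dual ℂ V, symEval (fun _ : Fin a => symEval ξ) x = 0 := by
  constructor
  · intro h ξ
    have h1 := eval_foulkesHowe a b x ξ
    rw [h, map_zero, mul_zero] at h1
    exact (mul_eq_zero.1 h1.symm).resolve_left (fac_ne _)
  · intro h
    apply symEval_separates _ (span_evalPow (V := V) a)
    intro lam hlam
    choose ξ hξ using hlam
    have hlam' : lam = fun i => evalPow a (ξ i) := by
      funext i; exact (hξ i).symm
    rw [hlam']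
    have h1 := eval_foulkesHowe a b x ξ
    rw [h ξ, mul_zero] at h1
    exact (mul_eq_zero.1 h1).resolve_left (fac_ne _)

end Gen

/-- Product with a fixed element: weights and kernels. -/
theorem exists_mul_ker {b B a m : ℕ} (y : Pleth B a m) (h0 : y ≠ 0) :
    ∃ L : Pleth b a m →ₗ[ℂ] Pleth (b + B) a m, (∀ x, L x = 0 → x = 0) ∧
      (∀ x, (foulkesHowe B a (Fin m → ℂ) y = 0 ∨ foulkesHowe b a (Fin m → ℂ) x = 0) →
        foulkesHowe (b + B) a (Fin m → ℂ) (L x) = 0) ∧
      ∀ (g : Matrix (Fin m) (Fin m) ℂ) (c d : ℂ), plethAct B a m g y = c • y →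
        ∀ x, plethAct b a m g x = d • x → plethAct (b + B) a m g (L x) = (d * c) • L x := by
  obtain ⟨L, hL⟩ := exists_mul (M := Sym[ℂ]^a (Fin m → ℂ)) (b := b) (B := B) y
  refine ⟨L, ?_, ?_, ?_⟩
  · intro x hx
    apply pv_domain (M := Sym[ℂ]^a (Fin m → ℂ)) x y h0
    intro φ
    have h1 := hL φ x
    have h2 : L x = 0 := hx
    rw [h2, map_zero, mul_zero] at h1
    exact (mul_eq_zero.1 h1.symm).resolve_left (fac_ne _)
  · intro x hx
    refine (foulkesHowe_eq_zero_iff (V := Fin m → ℂ) (b + B) a (L x)).2 ?_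
    intro ξ
    have h1 := hL (symEval ξ) x
    have h2 : symEval (fun _ : Fin B => symEval ξ) y * symEval (fun _ : Fin b => symEval ξ) x = 0 := by
      rcases hx with hx | hx
      · rw [(foulkesHowe_eq_zero_iff B a y).1 hx ξ, zero_mul]
      · rw [(foulkesHowe_eq_zero_iff b a x).1 hx ξ, mul_zero]
    rw [h2, mul_zero] at h1
    exact (mul_eq_zero.1 h1).resolve_left (mul_ne_zero (fac_ne _) (fac_ne _))
  · intro g c d hy x hx
    have hx1 : symMap b (symMap a (Matrix.toLin' g)) x = d • x := hx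
    have hy1 : symMap B (symMap a (Matrix.toLin' g)) y = c • y := hy
    have h1 : symMap (b + B) (symMap a (Matrix.toLin' g)) (L x) - (d * c) • L x = 0 := by
      apply pv_inj
      intro φ
      rw [map_sub, map_smul, symEval_symMap, sub_eq_zero, smul_eq_mul]
      have e1 := hL (φ ∘ₗ symMap a (Matrix.toLin' g)) x
      have e2 := hL φ x
      have e3 : symEval (fun _ : Fin b => φ ∘ₗ symMap a (Matrix.toLin' g)) x =
          d * symEval (fun _ => φ) x := pv_eigen _ _ _ hx1 φ
      have e4 : symEval (fun _ : Fin B => φ ∘ₗ symMap a (Matrix.toLin' g)) y =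
          c * symEval (fun _ => φ) y := pv_eigen _ _ _ hy1 φ
      rw [e3, e4] at e1
      have h3 : (Fintype.card (Equiv.Perm (Fin b)) : ℂ) *
          (Fintype.card (Equiv.Perm (Fin B)) : ℂ) ≠ 0 := mul_ne_zero (fac_ne _) (fac_ne _)
      apply mul_left_cancel₀ h3
      rw [e1]
      calc _ = (d * c) * ((Fintype.card (Equiv.Perm (Fin (b + B))) : ℂ) *
              (symEval (fun _ => φ) y * symEval (fun _ => φ) x)) := by ring
        _ = _ := by rw [← e2]; ring
    exact eq_of_sub_zero' h1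

/-- The highest weight vectors of weight `lam` in the kernel of the Foulkes-Howe map. -/
noncomputable def KH (b a m : ℕ) (lam : Fin m → ℕ) : Submodule ℂ (Pleth b a m) :=
  LinearMap.ker (foulkesHowe b a (Fin m → ℂ)) ⊓ hwSpace lam (plethAct b a m)

/-- (B5) for the kernel: multiplication by a highest weight vector. -/
theorem finrank_KH_mul {b B a m : ℕ} {lam mu : Fin m → ℕ} (h : Pos B a m mu) :
    Module.finrank ℂ (KH b a m lam) ≤ Module.finrank ℂ (KH (b + B) a m (lam + mu)) := by
  obtain ⟨y, hy, h0⟩ := h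
  obtain ⟨L, hL0, hL1, hL2⟩ := exists_mul_ker (b := b) y h0
  refine finrank_le_of_inj L _ _ (fun x hx => ⟨?_, ?_⟩) (fun x _ hx => hL0 x hx)
  · exact LinearMap.mem_ker.2 (hL1 x (Or.inr (LinearMap.mem_ker.1 hx.1)))
  · intro g hg
    rw [hL2 g _ _ (hy g hg) x (hx.2 g hg)]
    congr 1
    rw [← Finset.prod_mul_distrib]
    exact Finset.prod_congr rfl fun i _ => by rw [Pi.add_apply, pow_add]

/-- (B3) The ideal: multiplication by a highest weight vector of the kernel. -/
theorem plethMult_le_KH {b B a m : ℕ} {lam mu : Fin m → ℕ} {y : Pleth B a m}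
    (hy : y ∈ KH B a m mu) (h0 : y ≠ 0) :
    plethMult b a m lam ≤ Module.finrank ℂ (KH (b + B) a m (lam + mu)) := by
  obtain ⟨L, hL0, hL1, hL2⟩ := exists_mul_ker (b := b) y h0
  refine finrank_le_of_inj L _ _ (fun x hx => ⟨?_, ?_⟩) (fun x _ hx => hL0 x hx)
  · exact LinearMap.mem_ker.2 (hL1 x (Or.inl (LinearMap.mem_ker.1 hy.1)))
  · intro g hg
    rw [hL2 g _ _ (hy.2 g hg) x (hx g hg)]
    congr 1
    rw [← Finset.prod_mul_distrib]
    exact Finset.prod_congr rfl fun i _ => by rw [Pi.add_apply, pow_add]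

end Vale.Agent.P181.Z463
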