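import Vale.Agent.P181.Z.H463.EqB
import Vale.Agent.P181.Z.H592.Wt

set_option autoImplicit false

/-!
# P181, [Z]: weights of highest weight vectors are antitone
-/

open scoped TensorProduct

namespace Vale.Agent.P181.Z463

open Vale.Agent.P181 Vale.Agent.P181.H280 Vale.Agent.P181.H54 Vale.Agent.P181.FR
  Vale.Agent.P181.T4 Vale.Agent.P181.H530.Torus Vale.Agent.P181.Z.H592

theorem antitone_of_plethMult {N a n : ℕ} {nu : Fin n → ℕ} (h : plethMult N a n nu ≠ 0) :
    Antitone nu := by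
  rw [plethMult_eq_HA] at h
  have h1 : ∃ x ∈ HA n N a nu, x ≠ 0 := by
    by_contra hne
    push Not at hne
    apply h
    have h2 : HA n N a nu = ⊥ := by
      rw [eq_bot_iff]
      intro x hx
      rw [Submodule.mem_bot]
      exact hne x hx
    rw [h2]
    exact finrank_bot ℂ _
  obtain ⟨x, hx, hx0⟩ := h1
  obtain ⟨hw, hr⟩ := mem_HA.1 hx
  intro j l hjl
  by_contra hlt
  push Not at hlt
  have hne : j ≠ l := by
    rintro rfl
    exact lt_irrefl _ hlt
  exact hx0 (eq_zero_of_neg hne hw (hr j l (lt_of_le_of_ne hjl hne)) hlt)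

theorem plethMult_ne_zero_of_hw {N a n : ℕ} {nu : Fin n → ℕ} {y : Pleth N a n}
    (hy : y ∈ hwSpace nu (plethAct N a n)) (h0 : y ≠ 0) : plethMult N a n nu ≠ 0 := by
  have h2 := card_le_finrank_sub (hwSpace nu (plethAct N a n)) (fun _ : Unit => y)
    (fun _ => hy) (by
      let _ := Module.addCommMonoidToAddCommGroup ℂ (M := Pleth N a n)
      exact LinearIndependent.of_subsingleton () h0)
  rw [Fintype.card_unit] at h2
  rw [plethMult]
  exact Nat.one_le_iff_ne_zero.1 h2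

/-- The weight of a nonzero highest weight vector is antitone. -/
theorem antitone_of_hw {N a n : ℕ} {nu : Fin n → ℕ} {y : Pleth N a n}
    (hy : y ∈ hwSpace nu (plethAct N a n)) (h0 : y ≠ 0) : Antitone nu :=
  antitone_of_plethMult (plethMult_ne_zero_of_hw hy h0)

/-- **The equation, as a highest weight vector, with the numbers of its weight.** -/
theorem exists_eqC (n a : ℕ) (ha : 2 ≤ a) :
    ∃ (κ : Fin (n + 3) → ℕ) (y : Pleth (a + 4) a (n + 3)), y ≠ 0 ∧
      y ∈ KH (a + 4) a (n + 3) κ ∧ Antitone κ ∧ ∑ i, κ i = (a + 4) * a ∧ κ 1 + κ 2 ≤ a + 2 ∧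
      κ 2 ≤ 2 ∧ ∀ i : Fin (n + 3), 3 ≤ (i : ℕ) → κ i = 0 := by
  obtain ⟨κ, y, hy0, hy, hd⟩ := exists_eqB n a ha
  obtain ⟨h1, h2, h3, h4⟩ := dom_kap ha hd
  exact ⟨κ, y, hy0, hy, antitone_of_hw hy.2 hy0, h1, h2, h3, h4⟩

end Vale.Agent.P181.Z463
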