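import Vale.Agent.P181.Z.H463.Rich

set_option autoImplicit false

/-!
# P181, [Z]: a highest weight vector in the kernel of the Foulkes-Howe map
-/

open scoped TensorProduct

namespace Vale.Agent.P181.Z463

open Vale.Agent.P181 Vale.Agent.P181.H280 Vale.Agent.P181.H54 Vale.Agent.P181.FR
  Vale.Agent.P181.T4 Vale.Agent.P181.H530.Torus

/-- **The equation, as a highest weight vector.** -/
theorem exists_eqB (n a : ℕ) (ha : 2 ≤ a) :
    ∃ (κ : Fin (n + 3) → ℕ) (y : Pleth (a + 4) a (n + 3)), y ≠ 0 ∧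
      y ∈ KH (a + 4) a (n + 3) κ ∧ Dom κ (kap n a) := by
  obtain ⟨y, hy0, hy1, hy2⟩ := exists_eqT n a ha
  obtain ⟨κ, hd, hth⟩ := rich_TW _ (ker_borel (a + 4) a (n + 3)) (kap n a) (sum_kap n ha)
  have h1 : 1 ≤ Module.finrank ℂ ↥((LinearMap.ker (foulkesHowe (a + 4) a (Fin (n + 3) → ℂ)) :
      Submodule ℂ (Pleth (a + 4) a (n + 3))) ⊓ TW (a + 4) a (n + 3) (kap n a)) := by
    have h2 := card_le_finrank_sub ((LinearMap.ker (foulkesHowe (a + 4) a (Fin (n + 3) → ℂ)) :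
      Submodule ℂ (Pleth (a + 4) a (n + 3))) ⊓ TW (a + 4) a (n + 3) (kap n a))
      (fun _ : Unit => y) (fun _ => ⟨LinearMap.mem_ker.2 hy1, hy2⟩) (by
        let _ := Module.addCommMonoidToAddCommGroup ℂ (M := Pleth (a + 4) a (n + 3))
        exact LinearIndependent.of_subsingleton () hy0)
    simpa using h2
  have h3 : Module.finrank ℂ (KH (a + 4) a (n + 3) κ) ≠ 0 := by
    intro h0
    have h4 : Module.finrank ℂ ↥((LinearMap.ker (foulkesHowe (a + 4) a (Fin (n + 3) → ℂ)) :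
      Submodule ℂ (Pleth (a + 4) a (n + 3))) ⊓ hwSpace κ (plethAct (a + 4) a (n + 3))) = 0 := h0
    rw [h4, mul_zero] at hth
    omega
  have h5 : ∃ z ∈ KH (a + 4) a (n + 3) κ, z ≠ 0 := by
    by_contra hne
    push Not at hne
    apply h3
    have h6 : KH (a + 4) a (n + 3) κ = ⊥ := by
      rw [eq_bot_iff]
      intro x hx
      rw [Submodule.mem_bot]
      exact hne x hx
    rw [h6]
    exact finrank_bot ℂ (Pleth (a + 4) a (n + 3))
  obtain ⟨z, hz, hz0⟩ := h5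
  exact ⟨κ, z, hz0, hz, hd⟩

/-- The numbers of a weight dominating `kap`. -/
theorem dom_kap {n a : ℕ} (ha : 2 ≤ a) {κ : Fin (n + 3) → ℕ} (h : Dom κ (kap n a)) :
    ∑ i, κ i = (a + 4) * a ∧ κ 1 + κ 2 ≤ a + 2 ∧ κ 2 ≤ 2 ∧ ∀ i : Fin (n + 3), 3 ≤ (i : ℕ) → κ i = 0 := by
  classical
  have e0 : ∀ i : Fin (n + 3), 3 ≤ (i : ℕ) → kap n a i = 0 := by
    intro i hi
    rw [kap, if_neg (by omega), if_neg (by omega), if_neg (by omega)]
  have k1 : kap n a 1 = a := rfl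
  have k2 : kap n a 2 = 2 := rfl
  have v1 : ((1 : Fin (n + 3)) : ℕ) = 1 := rfl
  have v2 : ((2 : Fin (n + 3)) : ℕ) = 2 := rfl
  have h3 := h.2 3
  have hz : ∑ x ∈ Finset.univ.filter (fun x : Fin (n + 3) => 3 ≤ (x : ℕ)), kap n a x = 0 :=
    Finset.sum_eq_zero fun x hx => e0 x (Finset.mem_filter.1 hx).2
  rw [hz, Nat.le_zero, Finset.sum_eq_zero_iff] at h3
  have hr2 : ∀ f : Fin (n + 3) → ℕ, (∀ i : Fin (n + 3), 3 ≤ (i : ℕ) → f i = 0) →
      ∑ x ∈ Finset.univ.filter (fun x : Fin (n + 3) => 2 ≤ (x : ℕ)), f x = f 2 := by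
    intro f hf
    rw [Finset.sum_eq_single 2]
    · intro x hx hne
      apply hf
      have h5 := (Finset.mem_filter.1 hx).2
      by_contra h6
      exact hne (Fin.ext (by rw [v2]; omega))
    · intro hx
      exact absurd (Finset.mem_filter.2 ⟨Finset.mem_univ (2 : Fin (n + 3)), v2.ge⟩) hx
  have hr1 : ∀ f : Fin (n + 3) → ℕ, (∀ i : Fin (n + 3), 3 ≤ (i : ℕ) → f i = 0) →
      ∑ x ∈ Finset.univ.filter (fun x : Fin (n + 3) => 1 ≤ (x : ℕ)), f x = f 1 + f 2 := by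
    intro f hf
    have h5 : Finset.univ.filter (fun x : Fin (n + 3) => 1 ≤ (x : ℕ)) =
        insert 1 (Finset.univ.filter (fun x : Fin (n + 3) => 2 ≤ (x : ℕ))) := by
      ext x
      simp only [Finset.mem_filter, Finset.mem_univ, true_and, Finset.mem_insert]
      constructor
      · intro hx
        by_cases h6 : (x : ℕ) = 1
        · exact Or.inl (Fin.ext (by rw [v1]; exact h6))
        · exact Or.inr (by omega)
      · rintro (rfl | hx)
        · exact le_rfl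
        · omega
    rw [h5, Finset.sum_insert, hr2 f hf]
    rw [Finset.mem_filter, v1]
    omega
  have hk3 : ∀ i : Fin (n + 3), 3 ≤ (i : ℕ) → κ i = 0 := fun i hi =>
    h3 i (Finset.mem_filter.2 ⟨Finset.mem_univ _, hi⟩)
  have h1 := h.2 1
  have h2 := h.2 2
  rw [hr1 κ hk3, hr1 _ e0, k1, k2] at h1
  rw [hr2 κ hk3, hr2 _ e0, k2] at h2
  exact ⟨h.1.trans (sum_kap n ha), h1, h2, hk3⟩

/-- **The kernel contains shifted copies of all multiplicity spaces.** -/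
theorem exists_kappa (n a : ℕ) (ha : 2 ≤ a) :
    ∃ κ : Fin (n + 3) → ℕ, ∑ i, κ i = (a + 4) * a ∧ κ 1 + κ 2 ≤ a + 2 ∧ κ 2 ≤ 2 ∧
      (∀ i : Fin (n + 3), 3 ≤ (i : ℕ) → κ i = 0) ∧
      ∀ (N : ℕ) (theta0 : Fin (n + 3) → ℕ), plethMult N a (n + 3) theta0 ≤
        Module.finrank ℂ (KH (N + (a + 4)) a (n + 3) (theta0 + κ)) := by
  obtain ⟨κ, y, hy0, hy, hd⟩ := exists_eqB n a ha
  obtain ⟨h1, h2, h3, h4⟩ := dom_kap ha hd
  exact ⟨κ, h1, h2, h3, h4, fun N theta0 => plethMult_le_KH hy hy0⟩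

end Vale.Agent.P181.Z463
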