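import Vale.Agent.P181.Z.H463.FF

set_option autoImplicit false

/-!
An explicit torus weight vector in the kernel of the Foulkes-Howe map.
-/

open scoped TensorProduct

namespace Vale.Agent.P181.Z463

open Vale.Agent.P181 Vale.Agent.P181.H280 Vale.Agent.P181.H54 Vale.Agent.P181.FR

open PowerSeries

/-- The weight of the equation. -/
def kap (n a : ℕ) : Fin (n + 3) → ℕ := fun i =>
  if (i : ℕ) = 0 then a ^ 2 + 3 * a - 2 else if (i : ℕ) = 1 then a else
    if (i : ℕ) = 2 then 2 else 0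

/-- The first three coordinate vectors. -/
noncomputable def ee (n : ℕ) (s : Fin 3) : Fin (n + 3) → ℂ :=
  Pi.single (Fin.castLE (by omega) s) 1

lemma smul_poly (r : ℂ) (p : Polynomial ℂ⟦X⟧) : r • p = Polynomial.C (C r) * p := by
  ext k : 1
  rw [Polynomial.coeff_smul, Polynomial.coeff_C_mul, PowerSeries.smul_eq_C_mul]

lemma ww_lin (α β γ : ℂ) : (α • ww 0 + β • ww 1 + γ • ww 2 : Polynomial ℂ⟦X⟧) =
    Polynomial.C (C α + C β * X) + Polynomial.C (C γ) * Polynomial.X := by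
  have h0 : ww 0 = 1 := rfl
  have h1 : ww 1 = Polynomial.C X := rfl
  have h2 : ww 2 = Polynomial.X := rfl
  rw [h0, h1, h2, smul_poly, smul_poly, smul_poly, mul_one, map_add, map_mul]

section

variable {n a : ℕ}

/-- The three leading terms. -/
noncomputable def Ek (n a : ℕ) (φ : Module.Dual ℂ (Sym[ℂ]^a (Fin (n + 3) → ℂ))) (k : ℕ) : ℂ⟦X⟧ :=
  (FF φ (ee n) ww).coeff k

lemma Ek_symEval (ξ : Fin a → Module.Dual ℂ (Fin (n + 3) → ℂ)) (k : ℕ) :
    Ek n a (symEval ξ) k = C (Fintype.card (Equiv.Perm (Fin a)) : ℂ) *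
      (PP Finset.univ (fun i => ξ i (ee n 0)) (fun i => ξ i (ee n 1))
        (fun i => ξ i (ee n 2))).coeff k := by
  rw [Ek, FF_symEval, Polynomial.coeff_smul, PowerSeries.smul_eq_C_mul]
  congr 2
  rw [PP]
  apply Finset.prod_congr rfl
  intro i _
  rw [Fin.sum_univ_three, ww_lin]

/-- Monomials. -/
lemma prod_ww (f : Fin a → Fin 3) (d : Fin 3 → ℂ) (s : Finset (Fin a)) :
    ∃ n0 n1 n2 : ℕ, n0 + n1 + n2 = s.card ∧
      ∏ i ∈ s, ww (f i) = Polynomial.C (X ^ n1) * Polynomial.X ^ n2 ∧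
      ∏ i ∈ s, d (f i) = d 0 ^ n0 * d 1 ^ n1 * d 2 ^ n2 := by
  classical
  induction s using Finset.induction_on with
  | empty => exact ⟨0, 0, 0, by simp, by simp, by simp⟩
  | insert i s hi ih =>
    obtain ⟨n0, n1, n2, h1, h2, h3⟩ := ih
    rw [Finset.prod_insert hi, Finset.prod_insert hi, Finset.card_insert_of_notMem hi, h2, h3]
    have hf : f i = 0 ∨ f i = 1 ∨ f i = 2 := by
      generalize f i = x
      fin_cases x
      · exact Or.inl rfl
      · exact Or.inr (Or.inl rfl)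
      · exact Or.inr (Or.inr rfl)
    rcases hf with hf | hf | hf
    · refine ⟨n0 + 1, n1, n2, by omega, ?_, ?_⟩
      · have h0 : ww 0 = 1 := rfl
        rw [hf, h0, one_mul]
      · rw [hf]; ring
    · refine ⟨n0, n1 + 1, n2, by omega, ?_, ?_⟩
      · have h0 : ww 1 = Polynomial.C X := rfl
        rw [hf, h0, pow_succ', map_mul]; ring
      · rw [hf]; ring
    · refine ⟨n0, n1, n2 + 1, by omega, ?_, ?_⟩
      · have h0 : ww 2 = Polynomial.X := rfl
        rw [hf, h0]; ring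
      · rw [hf]; ring

lemma toLin_ee (n : ℕ) (d : Fin (n + 3) → ℂ) (s : Fin 3) :
    Matrix.toLin' (Matrix.diagonal d) (ee n s) =
      ∑ r, (if r = s then d (Fin.castLE (by omega) s) else 0) • ee n r := by
  rw [Finset.sum_eq_single s]
  · rw [if_pos rfl, Matrix.toLin'_apply, ee, Matrix.mulVec_single_one]
    funext i
    rw [Matrix.col_apply, Matrix.diagonal_apply, Pi.smul_apply, Pi.single_apply, smul_eq_mul]
    by_cases hi : i = Fin.castLE (by omega) s
    · rw [if_pos hi, if_pos hi, mul_one, hi]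
    · rw [if_neg hi, if_neg hi, mul_zero]
  · intro r _ hr
    rw [if_neg hr, zero_smul]
  · intro h
    exact absurd (Finset.mem_univ _) h

lemma Ek_torus (d : Fin (n + 3) → ℂ) (hd : ∀ i, d i ≠ 0)
    (φ : Module.Dual ℂ (Sym[ℂ]^a (Fin (n + 3) → ℂ))) (k : ℕ) :
    Ek n a (φ ∘ₗ symMap a (Matrix.toLin' (Matrix.diagonal d))) k =
      C (d 0 ^ a * (d 2 / d 0) ^ k) * rescale (d 1 / d 0) (Ek n a φ k) := by
  classical
  rw [Ek, FF_comp φ (ee n) ww _ _ (toLin_ee n d), Ek]
  let δ : Fin 3 → ℂ := fun s => d (Fin.castLE (by omega) s)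
  have h1 : (fun r : Fin 3 => ∑ s, (if r = s then d (Fin.castLE (by omega) s) else 0) • ww s) =
      fun r => δ r • ww r := by
    funext r
    rw [Finset.sum_eq_single r]
    · rw [if_pos rfl]
    · intro s _ hs
      rw [if_neg (Ne.symm hs), zero_smul]
    · intro h
      exact absurd (Finset.mem_univ _) h
  rw [h1]
  unfold FF
  rw [Polynomial.finsetSum_coeff, Polynomial.finsetSum_coeff, map_sum, Finset.mul_sum]
  apply Finset.sum_congr rfl
  intro f _
  obtain ⟨n0, n1, n2, e1, e2, e3⟩ := prod_ww f δ Finset.univ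
  rw [Finset.card_univ, Fintype.card_fin] at e1
  have hδ0 : δ 0 = d 0 := rfl
  have hδ1 : δ 1 = d 1 := rfl
  have hδ2 : δ 2 = d 2 := rfl
  rw [Finset.prod_smul, e2, e3, hδ0, hδ1, hδ2, Polynomial.coeff_smul, Polynomial.coeff_smul,
    Polynomial.coeff_smul, Polynomial.coeff_C_mul, Polynomial.coeff_X_pow]
  have h0 := hd 0
  by_cases hk : k = n2
  · subst hk
    have h3 : d 0 ^ n0 * d 1 ^ n1 * d 2 ^ k = d 0 ^ a * (d 2 / d 0) ^ k * (d 1 / d 0) ^ n1 := by
      rw [← e1, div_pow, div_pow, pow_add, pow_add]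
      field_simp
    rw [if_pos rfl, mul_one, PowerSeries.smul_eq_C_mul, PowerSeries.smul_eq_C_mul,
      PowerSeries.smul_eq_C_mul, map_mul (rescale (d 1 / d 0)), map_pow (rescale (d 1 / d 0)),
      h3, map_mul (C (R := ℂ))]
    have h4 : rescale (d 1 / d 0) (X : ℂ⟦X⟧) = C (d 1 / d 0) * X := by
      ext j
      rw [coeff_rescale, coeff_C_mul, coeff_X]
      by_cases hj : j = 1
      · rw [if_pos hj, hj]; ring
      · rw [if_neg hj]; ring
    have h5 : ∀ z : ℂ, rescale (d 1 / d 0) (C z : ℂ⟦X⟧) = C z := by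
      intro z
      ext j
      rw [coeff_rescale, coeff_C]
      by_cases hj : j = 0
      · rw [if_pos hj, hj, pow_zero, one_mul]
      · rw [if_neg hj, mul_zero]
    rw [h4, h5, mul_pow, map_pow (C (R := ℂ)) (d 1 / d 0) n1]
    ring
  · rw [if_neg hk]
    simp only [mul_zero, smul_zero, map_zero]

end

/-- Scaling of the equation. -/
lemma ev_scale (a : ℕ) {c τ : ℂ} (hc : c ≠ 0) (hτ : τ ≠ 0) (σ : ℂ) (E0 E1 E2 : ℂ⟦X⟧)
    (hE : coeff 0 E0 ≠ 0) :
    ev a (C c * rescale τ E0) (C (c * σ) * rescale τ E1) (C (c * σ ^ 2) * rescale τ E2) =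
      c * σ ^ 2 * τ ^ a * ev a E0 E1 E2 := by
  have hE' : constantCoeff E0 ≠ 0 := by
    rw [← coeff_zero_eq_constantCoeff_apply]; exact hE
  have h1 : E0 * E0⁻¹ = 1 := PowerSeries.mul_inv_cancel E0 hE'
  have h2 : rescale τ E0 * rescale τ E0⁻¹ = 1 := by rw [← map_mul, h1, map_one]
  have hcc : (C c : ℂ⟦X⟧) * C c⁻¹ = 1 := by rw [← map_mul, mul_inv_cancel₀ hc, map_one]
  have h3 : (C c * rescale τ E0)⁻¹ = C c⁻¹ * rescale τ E0⁻¹ := by
    rw [PowerSeries.inv_eq_iff_mul_eq_one]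
    · calc C c⁻¹ * rescale τ E0⁻¹ * (C c * rescale τ E0)
          = (C c * C c⁻¹) * (rescale τ E0 * rescale τ E0⁻¹) := by ring
        _ = 1 := by rw [hcc, h2, one_mul]
    · rw [map_mul]
      have h4 : constantCoeff (rescale τ E0) = constantCoeff E0 := by
        rw [← coeff_zero_eq_constantCoeff_apply, coeff_rescale, pow_zero, one_mul,
          coeff_zero_eq_constantCoeff_apply]
      rw [h4]
      simpa using ⟨hc, hE'⟩
  have h4 : ((C (c * σ) * rescale τ E1) ^ 2 - 2 * (C c * rescale τ E0) *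
      (C (c * σ ^ 2) * rescale τ E2)) * (C c * rescale τ E0)⁻¹ ^ 2 =
      C (σ ^ 2) * rescale τ ((E1 ^ 2 - 2 * E0 * E2) * E0⁻¹ ^ 2) := by
    rw [h3, map_mul (rescale τ), map_sub, map_mul (rescale τ), map_mul (rescale τ),
      map_pow (rescale τ) E1 2, map_pow (rescale τ) E0⁻¹ 2, map_ofNat,
      map_mul (C (R := ℂ)) c σ, map_mul (C (R := ℂ)) c (σ ^ 2), map_pow (C (R := ℂ))]
    calc _ = (C σ) ^ 2 * ((rescale τ E1) ^ 2 - 2 * rescale τ E0 * rescale τ E2) *
          (rescale τ E0⁻¹) ^ 2 * (C c * C c⁻¹) ^ 2 := by ring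
      _ = _ := by rw [hcc]; ring
  have h5 : ∀ f : ℂ⟦X⟧, integ (rescale τ f) = C τ⁻¹ * rescale τ (integ f) := by
    intro f
    ext j
    rcases j with _ | j
    · rw [coeff_integ_zero, coeff_C_mul, coeff_rescale, coeff_integ_zero, mul_zero, mul_zero]
    · rw [coeff_integ_succ, coeff_C_mul, coeff_rescale, coeff_rescale, coeff_integ_succ, pow_succ]
      field_simp
  rw [ev, h4, integ_C_mul, h5]
  have h6 : C c * rescale τ E0 * (C (σ ^ 2) * (C τ⁻¹ *
      rescale τ (integ ((E1 ^ 2 - 2 * E0 * E2) * E0⁻¹ ^ 2)))) =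
      C (c * σ ^ 2 * τ⁻¹) * rescale τ (E0 * integ ((E1 ^ 2 - 2 * E0 * E2) * E0⁻¹ ^ 2)) := by
    rw [map_mul (rescale τ), map_mul (C (R := ℂ)), map_mul (C (R := ℂ))]; ring
  rw [h6, coeff_C_mul, coeff_rescale, ← ev, pow_succ]
  field_simp
  try ring

lemma coeff_inv_sq {a : ℕ} (ha : 1 ≤ a) :
    coeff 0 ((1 + X ^ a : ℂ⟦X⟧)⁻¹ ^ 2) = 1 ∧ coeff a ((1 + X ^ a : ℂ⟦X⟧)⁻¹ ^ 2) = -2 := by
  set E : ℂ⟦X⟧ := 1 + X ^ a with hE
  have hc : constantCoeff E ≠ 0 := by
    rw [hE]
    simp [show a ≠ 0 by omega]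
  have h1 : E * E⁻¹ = 1 := PowerSeries.mul_inv_cancel E hc
  set u := E⁻¹ ^ 2 with hu
  have h2 : u + (C 2 * (X ^ a * u) + X ^ (2 * a) * u) = 1 := by
    have h3 : (C 2 : ℂ⟦X⟧) = 2 := map_ofNat (C (R := ℂ)) 2
    calc u + (C 2 * (X ^ a * u) + X ^ (2 * a) * u) = E ^ 2 * u := by rw [h3, hE]; ring
      _ = (E * E⁻¹) ^ 2 := by rw [hu]; ring
      _ = 1 := by rw [h1, one_pow]
  have h3 := congrArg (coeff 0) h2
  have h4 := congrArg (coeff a) h2
  rw [map_add, map_add, coeff_C_mul, coeff_X_pow_mul', coeff_X_pow_mul', if_neg (by omega),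
    if_neg (by omega), coeff_zero_one] at h3
  rw [map_add, map_add, coeff_C_mul, coeff_X_pow_mul', coeff_X_pow_mul', if_pos le_rfl,
    if_neg (by omega), Nat.sub_self, coeff_one, if_neg (by omega)] at h4
  have h5 : coeff 0 u = 1 := by linear_combination h3
  exact ⟨h5, by rw [h5] at h4; linear_combination h4⟩

/-- **The equation.** A nonzero torus weight vector in the kernel of the Foulkes-Howe map. -/
theorem exists_eqT (n a : ℕ) (ha : 2 ≤ a) :
    ∃ y : Pleth (a + 4) a (n + 3), y ≠ 0 ∧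
      foulkesHowe (a + 4) a (Fin (n + 3) → ℂ) y = 0 ∧
      ∀ d : Fin (n + 3) → ℂ, (∀ i, d i ≠ 0) →
        plethAct (a + 4) a (n + 3) (Matrix.diagonal d) y = (∏ i, d i ^ kap n a i) • y := by
  classical
  obtain ⟨y, hy⟩ := exists_ev (M := Sym[ℂ]^a (Fin (n + 3) → ℂ)) (E0 := fun φ => Ek n a φ 0)
    (E1 := fun φ => Ek n a φ 1) (E2 := fun φ => Ek n a φ 2) a
    (fun j => isH_FF (ee n) ww 0 j) (fun j => isH_FF (ee n) ww 1 j)
    (fun j => isH_FF (ee n) ww 2 j)
  refine ⟨y, ?_, ?_, ?_⟩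
  · -- nonvanishing
    intro h0
    have h0' : y = (0 : Sym[ℂ]^(a + 4) (Sym[ℂ]^a (Fin (n + 3) → ℂ))) := h0
    let pr : Fin 3 → Module.Dual ℂ (Fin (n + 3) → ℂ) := fun s =>
      LinearMap.proj (Fin.castLE (by omega) s)
    have hpr : ∀ s t : Fin 3, pr s (ee n t) = if s = t then 1 else 0 := by
      intro s t
      change (Pi.single (Fin.castLE (by omega) t) 1 : Fin (n + 3) → ℂ) (Fin.castLE (by omega) s) = _
      rw [Pi.single_apply]
      by_cases h : s = t
      · rw [if_pos h, if_pos (by rw [h])]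
      · rw [if_neg h, if_neg]
        intro h'
        exact h (Fin.castLE_injective _ h')
    let Ξ : Fin a → Module.Dual ℂ (Fin (n + 3) → ℂ) := fun i => if (i : ℕ) = 0 then pr 2 else pr 0
    let φ : Module.Dual ℂ (Sym[ℂ]^a (Fin (n + 3) → ℂ)) :=
      evalPow a (pr 0) + evalPow a (pr 1) + symEval Ξ
    have hF : FF φ (ee n) ww = 1 + Polynomial.C (X ^ a) +
        Polynomial.C (C (Fintype.card (Equiv.Perm (Fin a)) : ℂ)) * Polynomial.X := by
      rw [FF_add, FF_add, FF_evalPow, FF_evalPow, FF_symEval]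
      have e0 : ww 0 = 1 := rfl
      have e1 : ww 1 = Polynomial.C X := rfl
      have e2 : ww 2 = Polynomial.X := rfl
      have s0 : ∑ s, pr 0 (ee n s) • ww s = 1 := by
        rw [Fin.sum_univ_three, hpr, hpr, hpr, if_pos rfl, if_neg (by decide),
          if_neg (by decide), one_smul, zero_smul, zero_smul, add_zero, add_zero, e0]
      have s1 : ∑ s, pr 1 (ee n s) • ww s = Polynomial.C X := by
        rw [Fin.sum_univ_three, hpr, hpr, hpr, if_pos rfl, if_neg (by decide),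
          if_neg (by decide), one_smul, zero_smul, zero_smul, add_zero, zero_add, e1]
      have s2 : ∑ s, pr 2 (ee n s) • ww s = Polynomial.X := by
        rw [Fin.sum_univ_three, hpr, hpr, hpr, if_pos rfl, if_neg (by decide),
          if_neg (by decide), one_smul, zero_smul, zero_smul, zero_add, zero_add, e2]
      have s3 : ∏ i, ∑ s, Ξ i (ee n s) • ww s = Polynomial.X := by
        rw [Finset.prod_eq_single (⟨0, by omega⟩ : Fin a)]
        · change ∑ s, (if (0 : ℕ) = 0 then pr 2 else pr 0) (ee n s) • ww s = _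
          rw [if_pos rfl, s2]
        · intro i _ hi
          change ∑ s, (if (i : ℕ) = 0 then pr 2 else pr 0) (ee n s) • ww s = _
          rw [if_neg (fun h => hi (Fin.ext h)), s0]
        · intro h
          exact absurd (Finset.mem_univ _) h
      rw [s0, s1, s3, one_pow, smul_poly, ← map_pow]
    set κ : ℂ := (Fintype.card (Equiv.Perm (Fin a)) : ℂ) with hκ
    have hκ0 : κ ≠ 0 := fac_ne a
    have k0 : Ek n a φ 0 = 1 + X ^ a := by
      rw [Ek, hF, Polynomial.coeff_add, Polynomial.coeff_add, Polynomial.coeff_one_zero,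
        Polynomial.coeff_C_zero, Polynomial.coeff_C_mul, Polynomial.coeff_X_zero, mul_zero,
        add_zero]
    have k1 : Ek n a φ 1 = C κ := by
      rw [Ek, hF, Polynomial.coeff_add, Polynomial.coeff_add, Polynomial.coeff_one,
        Polynomial.coeff_C, Polynomial.coeff_C_mul, Polynomial.coeff_X_one, if_neg (by decide),
        if_neg (by decide), zero_add, zero_add, mul_one]
    have k2 : Ek n a φ 2 = 0 := by
      rw [Ek, hF, Polynomial.coeff_add, Polynomial.coeff_add, Polynomial.coeff_one,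
        Polynomial.coeff_C, Polynomial.coeff_C_mul, Polynomial.coeff_X, if_neg (by decide),
        if_neg (by decide), if_neg (by decide), zero_add, zero_add, mul_zero]
    have h1 := hy φ
    rw [h0', map_zero, k0, k1, k2] at h1
    have h2 : coeff 0 (1 + X ^ a : ℂ⟦X⟧) = 1 := by
      rw [map_add, coeff_zero_one, coeff_X_pow, if_neg (by omega), add_zero]
    rw [h2, one_pow, one_mul, ev, mul_zero, sub_zero, ← map_pow, integ_C_mul] at h1
    have h3 : (1 + X ^ a : ℂ⟦X⟧) * (C (κ ^ 2) * integ ((1 + X ^ a : ℂ⟦X⟧)⁻¹ ^ 2)) =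
        C (κ ^ 2) * (integ ((1 + X ^ a : ℂ⟦X⟧)⁻¹ ^ 2) +
          X ^ a * integ ((1 + X ^ a : ℂ⟦X⟧)⁻¹ ^ 2)) := by ring
    rw [h3, coeff_C_mul, map_add, coeff_X_pow_mul', if_pos (by omega), coeff_integ_succ,
      show a + 1 - a = 0 + 1 by omega, coeff_integ_succ, (coeff_inv_sq (by omega)).1,
      (coeff_inv_sq (by omega)).2] at h1
    have h4 : (-2 / ((a : ℂ) + 1) + 1 / (((0 : ℕ) : ℂ) + 1)) = 0 :=
      (mul_eq_zero.1 h1.symm).resolve_left (pow_ne_zero _ hκ0)
    have h5 : ((a : ℂ) + 1) ≠ 0 := Nat.cast_add_one_ne_zero a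
    have h6 : (a : ℂ) - 1 = 0 := by
      rw [Nat.cast_zero, zero_add, div_one] at h4
      field_simp at h4
      linear_combination h4
    have h7 : ((a - 1 : ℕ) : ℂ) = 0 := by
      rw [Nat.cast_sub (by omega), Nat.cast_one]; exact h6
    rw [Nat.cast_eq_zero] at h7
    omega
  · -- the kernel
    refine (foulkesHowe_eq_zero_iff (V := Fin (n + 3) → ℂ) (a + 4) a y).2 ?_
    intro ξ
    rw [hy]
    by_cases hc : coeff 0 (Ek n a (symEval ξ) 0) = 0
    · rw [hc, zero_pow (by omega), zero_mul]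
    · rw [ev_prod a _ _ _ _ (fun k => Ek n a (symEval ξ) k) (fun k => Ek_symEval ξ k) hc,
        mul_zero]
  · -- the weight
    intro d hd
    have hd0 := hd 0
    have h1 : symMap (a + 4) (symMap a (Matrix.toLin' (Matrix.diagonal d))) y -
        (∏ i, d i ^ kap n a i) • y = 0 := by
      apply pv_inj
      intro φ
      rw [map_sub, map_smul, symEval_symMap, sub_eq_zero, smul_eq_mul, hy, hy, Ek_torus d hd,
        Ek_torus d hd, Ek_torus d hd, pow_zero, mul_one, pow_one]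
      have hτ : d 1 / d 0 ≠ 0 := div_ne_zero (hd 1) hd0
      have hkap : ∏ i, d i ^ kap n a i = d 0 ^ (a ^ 2 + 3 * a - 2) * d 1 ^ a * d 2 ^ 2 := by
        rw [Fin.prod_univ_succ, Fin.prod_univ_succ, Fin.prod_univ_succ]
        have e1 : ∏ i : Fin n, d i.succ.succ.succ ^ kap n a i.succ.succ.succ = 1 := by
          apply Finset.prod_eq_one
          intro i _
          have e2 : kap n a i.succ.succ.succ = 0 := by
            rw [kap, if_neg, if_neg, if_neg]
            all_goals (rw [Fin.val_succ, Fin.val_succ, Fin.val_succ]; omega)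
          rw [e2, pow_zero]
        rw [e1, mul_one]
        have e3 : kap n a 0 = a ^ 2 + 3 * a - 2 := rfl
        have e4 : kap n a (Fin.succ 0) = a := rfl
        have e5 : kap n a (Fin.succ (Fin.succ 0)) = 2 := rfl
        rw [e3, e4, e5]
        change d 0 ^ (a ^ 2 + 3 * a - 2) * (d 1 ^ a * d 2 ^ 2) = _
        ring
      by_cases hc : coeff 0 (Ek n a φ 0) = 0
      · rw [coeff_C_mul, coeff_rescale, hc, mul_zero, mul_zero, zero_pow (by omega)]
        ring
      · rw [ev_scale a (pow_ne_zero a hd0) hτ (d 2 / d 0) _ _ _ hc, coeff_C_mul, coeff_rescale,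
          pow_zero, one_mul, hkap, mul_pow]
        have e6 : (d 0 ^ a) ^ (a + 3) * d 0 ^ a = d 0 ^ (a ^ 2 + 3 * a - 2) * (d 0 ^ 2 * d 0 ^ a) := by
          rw [← pow_mul, ← pow_add, ← pow_add, ← pow_add]
          congr 1
          have e7 : 2 ≤ a ^ 2 + 3 * a := by nlinarith
          have e8 : a * (a + 3) = a ^ 2 + 3 * a := by ring
          omega
        have e9 : (d 0 ^ a) ^ (a + 3) * (d 0 ^ a * (d 2 / d 0) ^ 2 * (d 1 / d 0) ^ a) =
            d 0 ^ (a ^ 2 + 3 * a - 2) * d 1 ^ a * d 2 ^ 2 := by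
          calc _ = ((d 0 ^ a) ^ (a + 3) * d 0 ^ a) * ((d 2 / d 0) ^ 2 * (d 1 / d 0) ^ a) := by ring
            _ = _ := by
              rw [e6, div_pow, div_pow]
              field_simp
        calc _ = ((d 0 ^ a) ^ (a + 3) * (d 0 ^ a * (d 2 / d 0) ^ 2 * (d 1 / d 0) ^ a)) *
              (coeff 0 (Ek n a φ 0) ^ (a + 3) *
                ev a (Ek n a φ 0) (Ek n a φ 1) (Ek n a φ 2)) := by ring
          _ = _ := by rw [e9]
    exact eq_of_sub_zero' h1

end Vale.Agent.P181.Z463
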