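import Vale.Agent.P181.Z.H463.Hom
import Mathlib.RingTheory.PowerSeries.Derivative
import Mathlib.RingTheory.PowerSeries.Inverse

set_option autoImplicit false

/-!
The equation `[t^(a+1)] E_0 ∫ (E_1^2 - 2 E_0 E_2) / E_0^2` of the products of `a` linear forms.
-/

open scoped TensorProduct

namespace Vale.Agent.P181.Z463

open Vale.Agent.P181 PowerSeries

universe u

/-- Formal integral. -/
noncomputable def integ (f : ℂ⟦X⟧) : ℂ⟦X⟧ :=
  PowerSeries.mk fun n => if n = 0 then 0 else coeff (n - 1) f / n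

lemma coeff_integ_zero (f : ℂ⟦X⟧) : coeff 0 (integ f) = 0 := by
  rw [integ, coeff_mk, if_pos rfl]

lemma coeff_integ_succ (f : ℂ⟦X⟧) (n : ℕ) : coeff (n + 1) (integ f) = coeff n f / (n + 1) := by
  rw [integ, coeff_mk, if_neg (Nat.succ_ne_zero n), Nat.add_sub_cancel]
  push_cast
  rfl

lemma integ_eq {f G : ℂ⟦X⟧} (h : PowerSeries.derivative ℂ G = f) (h0 : coeff 0 G = 0) :
    integ f = G := by
  ext n
  rcases n with _ | n
  · rw [coeff_integ_zero, h0]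
  · rw [coeff_integ_succ, ← h, coeff_derivative]
    have h1 : ((n : ℂ) + 1) ≠ 0 := Nat.cast_add_one_ne_zero n
    rw [mul_div_assoc, div_self h1, mul_one]

lemma integ_add (f g : ℂ⟦X⟧) : integ (f + g) = integ f + integ g := by
  ext n
  rcases n with _ | n
  · rw [map_add, coeff_integ_zero, coeff_integ_zero, coeff_integ_zero, add_zero]
  · rw [map_add, coeff_integ_succ, coeff_integ_succ, coeff_integ_succ, map_add, add_div]

lemma integ_C_mul (c : ℂ) (f : ℂ⟦X⟧) : integ (C c * f) = C c * integ f := by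
  ext n
  rcases n with _ | n
  · rw [coeff_integ_zero, coeff_C_mul, coeff_integ_zero, mul_zero]
  · rw [coeff_integ_succ, coeff_C_mul, coeff_C_mul, coeff_integ_succ, mul_div_assoc]

/-- The value of the equation. -/
noncomputable def ev (a : ℕ) (E0 E1 E2 : ℂ⟦X⟧) : ℂ :=
  coeff (a + 1) (E0 * integ ((E1 ^ 2 - 2 * E0 * E2) * E0⁻¹ ^ 2))

section Poly

variable {M : Type u} [AddCommGroup M] [Module ℂ M] [Module.Finite ℂ M]
  {E0 E1 E2 : Module.Dual ℂ M → ℂ⟦X⟧}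

omit [Module.Finite ℂ M] in
lemma rr_inv (h0 : ∀ j, IsH 1 (fun φ => coeff j (E0 φ))) (j : ℕ) :
    RR (fun φ => coeff 0 (E0 φ)) j (j + 1) (fun φ => coeff j (E0 φ)⁻¹) := by
  induction j using Nat.strong_induction_on with
  | _ j ih =>
    rcases Nat.eq_zero_or_pos j with rfl | hj
    · obtain ⟨y, hy⟩ := (IsH.zero (M := M) 0)
      refine ⟨fun _ => 1, ⟨SymmetricPower.tprod ℂ (fun i : Fin 0 => i.elim0), fun φ => ?_⟩,
        fun φ hφ => ?_⟩
      · rw [H54.symEval_const_tprod]; simp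
      · have hφ' : coeff 0 (E0 φ) ≠ 0 := hφ
        beta_reduce
        rw [PowerSeries.coeff_inv, if_pos rfl]
        rw [PowerSeries.coeff_zero_eq_constantCoeff_apply] at hφ' ⊢
        rw [zero_add, pow_one, mul_inv_cancel₀ hφ']
    · have h1 : ∀ x ∈ Finset.antidiagonal j, RR (fun φ => coeff 0 (E0 φ)) j j
          (fun φ => if x.2 < j then coeff x.1 (E0 φ) * coeff x.2 (E0 φ)⁻¹ else 0) := by
        intro x hx
        have hx' := Finset.mem_antidiagonal.1 hx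
        by_cases h2 : x.2 < j
        · have h3 := ((RR.of (c := fun φ => coeff 0 (E0 φ)) (h0 x.1)).mul (ih x.2 h2)).shift
            (h0 0) (x.1 - 1)
          refine (h3.cast (by omega) (by omega)).congr fun φ _ => ?_
          rw [if_pos h2]
        · refine (RR.zero j j).congr fun φ _ => ?_
          rw [if_neg h2]
      obtain ⟨F, hF, hF'⟩ := (RR.sum (Finset.antidiagonal j) _ h1).smul (-1)
      refine ⟨F, hF, fun φ hφ => ?_⟩
      rw [hF' φ hφ]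
      beta_reduce
      rw [PowerSeries.coeff_inv, if_neg (by omega)]
      have hφ' : constantCoeff (E0 φ) ≠ 0 := by
        rw [← PowerSeries.coeff_zero_eq_constantCoeff_apply]; exact hφ
      rw [PowerSeries.coeff_zero_eq_constantCoeff_apply, pow_succ]
      field_simp

omit [Module.Finite ℂ M] in
lemma rr_inv2 (h0 : ∀ j, IsH 1 (fun φ => coeff j (E0 φ))) (j : ℕ) :
    RR (fun φ => coeff 0 (E0 φ)) j (j + 2) (fun φ => coeff j ((E0 φ)⁻¹ ^ 2)) := by
  have h1 : ∀ x ∈ Finset.antidiagonal j, RR (fun φ => coeff 0 (E0 φ)) j (j + 2)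
      (fun φ => coeff x.1 (E0 φ)⁻¹ * coeff x.2 (E0 φ)⁻¹) := by
    intro x hx
    have hx' := Finset.mem_antidiagonal.1 hx
    exact ((rr_inv h0 x.1).mul (rr_inv h0 x.2)).cast (by omega) (by omega)
  refine (RR.sum (Finset.antidiagonal j) _ h1).congr fun φ _ => ?_
  rw [pow_two, PowerSeries.coeff_mul]

omit [Module.Finite ℂ M] in
lemma isH_D (h0 : ∀ j, IsH 1 (fun φ => coeff j (E0 φ))) (h1 : ∀ j, IsH 1 (fun φ => coeff j (E1 φ)))
    (h2 : ∀ j, IsH 1 (fun φ => coeff j (E2 φ))) (j : ℕ) :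
    IsH 2 (fun φ => coeff j (E1 φ ^ 2 - 2 * E0 φ * E2 φ)) := by
  have h3 : IsH 2 (fun φ => ∑ x ∈ Finset.antidiagonal j, coeff x.1 (E1 φ) * coeff x.2 (E1 φ)) :=
    IsH.sum _ _ fun x _ => (h1 x.1).mul (h1 x.2)
  have h4 : IsH 2 (fun φ => ∑ x ∈ Finset.antidiagonal j, coeff x.1 (E0 φ) * coeff x.2 (E2 φ)) :=
    IsH.sum _ _ fun x _ => (h0 x.1).mul (h2 x.2)
  refine (h3.add (h4.smul (-2))).congr fun φ => ?_
  have h5 : (2 : ℂ⟦X⟧) = C 2 := (map_ofNat (C (R := ℂ)) 2).symm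
  rw [map_sub, pow_two, PowerSeries.coeff_mul, mul_assoc, h5, coeff_C_mul, PowerSeries.coeff_mul]
  ring

omit [Module.Finite ℂ M] in
lemma rr_H (h0 : ∀ j, IsH 1 (fun φ => coeff j (E0 φ))) (h1 : ∀ j, IsH 1 (fun φ => coeff j (E1 φ)))
    (h2 : ∀ j, IsH 1 (fun φ => coeff j (E2 φ))) (m : ℕ) :
    RR (fun φ => coeff 0 (E0 φ)) (m + 2) (m + 2)
      (fun φ => coeff m ((E1 φ ^ 2 - 2 * E0 φ * E2 φ) * (E0 φ)⁻¹ ^ 2)) := by
  have h3 : ∀ x ∈ Finset.antidiagonal m, RR (fun φ => coeff 0 (E0 φ)) (m + 2) (m + 2)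
      (fun φ => coeff x.1 (E1 φ ^ 2 - 2 * E0 φ * E2 φ) * coeff x.2 ((E0 φ)⁻¹ ^ 2)) := by
    intro x hx
    have hx' := Finset.mem_antidiagonal.1 hx
    exact (((RR.of (isH_D h0 h1 h2 x.1)).mul (rr_inv2 h0 x.2)).shift (h0 0) x.1).cast
      (by omega) (by omega)
  refine (RR.sum (Finset.antidiagonal m) _ h3).congr fun φ _ => ?_
  rw [PowerSeries.coeff_mul]

omit [Module.Finite ℂ M] in
lemma rr_ev (a : ℕ) (h0 : ∀ j, IsH 1 (fun φ => coeff j (E0 φ)))
    (h1 : ∀ j, IsH 1 (fun φ => coeff j (E1 φ))) (h2 : ∀ j, IsH 1 (fun φ => coeff j (E2 φ))) :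
    RR (fun φ => coeff 0 (E0 φ)) (a + 3) (a + 2) (fun φ => ev a (E0 φ) (E1 φ) (E2 φ)) := by
  have h3 : ∀ x ∈ Finset.antidiagonal (a + 1), RR (fun φ => coeff 0 (E0 φ)) (a + 3) (a + 2)
      (fun φ => coeff x.1 (E0 φ) *
        coeff x.2 (integ ((E1 φ ^ 2 - 2 * E0 φ * E2 φ) * (E0 φ)⁻¹ ^ 2))) := by
    rintro ⟨i, j⟩ hx
    have hx' : i + j = a + 1 := Finset.mem_antidiagonal.1 hx
    rcases j with _ | m
    · refine (RR.zero _ _).congr fun φ _ => ?_
      rw [coeff_integ_zero, mul_zero]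
    · refine ((((RR.of (c := fun φ => coeff 0 (E0 φ)) (h0 i)).mul ((rr_H h0 h1 h2 m).smul
        (((m : ℂ) + 1)⁻¹))).shift (h0 0) i).cast (by omega) (by omega)).congr fun φ _ => ?_
      rw [coeff_integ_succ, div_eq_mul_inv, mul_comm (((m : ℂ) + 1)⁻¹)]
  refine (RR.sum (Finset.antidiagonal (a + 1)) _ h3).congr fun φ _ => ?_
  rw [ev, PowerSeries.coeff_mul]

omit [Module.Finite ℂ M] in
/-- The equation, as an element of the symmetric power. -/
theorem exists_ev (a : ℕ) (h0 : ∀ j, IsH 1 (fun φ => coeff j (E0 φ)))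
    (h1 : ∀ j, IsH 1 (fun φ => coeff j (E1 φ))) (h2 : ∀ j, IsH 1 (fun φ => coeff j (E2 φ))) :
    ∃ y : Sym[ℂ]^(a + 4) M, ∀ φ, symEval (fun _ => φ) y =
      coeff 0 (E0 φ) ^ (a + 3) * ev a (E0 φ) (E1 φ) (E2 φ) := by
  obtain ⟨F, hF, hF'⟩ := rr_ev a h0 h1 h2
  obtain ⟨y, hy⟩ := hF.mul (h0 0)
  refine ⟨y, fun φ => ?_⟩
  rw [hy φ]
  by_cases hc : coeff 0 (E0 φ) = 0
  · beta_reduce
    rw [hc, mul_zero, zero_pow (Nat.succ_ne_zero _), zero_mul]
  · beta_reduce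
    rw [hF' φ hc, pow_succ _ (a + 2)]
    ring

end Poly

end Vale.Agent.P181.Z463
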