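import Vale.Agent.P181.Z.H463.Prod

set_option autoImplicit false

/-!
The values of a functional on `Sym^a V` at the `a`-th power of a combination of three vectors.
-/

open scoped TensorProduct

namespace Vale.Agent.P181.Z463

open Vale.Agent.P181 Vale.Agent.P181.H280 Vale.Agent.P181.H54 Vale.Agent.P181.FR

universe u

section

variable {V : Type u} [AddCommGroup V] [Module ℂ V]
  {A : Type*} [CommRing A] [Algebra ℂ A] {a : ℕ}

/-- `φ ((Σ_s w_s e_s)^a)` -/
noncomputable def FF (φ : Module.Dual ℂ (Sym[ℂ]^a V)) (e : Fin 3 → V) (w : Fin 3 → A) : A :=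
  ∑ f : Fin a → Fin 3, φ (SymmetricPower.tprod ℂ (fun i => e (f i))) • ∏ i, w (f i)

lemma FF_comp (φ : Module.Dual ℂ (Sym[ℂ]^a V)) (e : Fin 3 → V) (w : Fin 3 → A) (g : V →ₗ[ℂ] V)
    (G : Fin 3 → Fin 3 → ℂ) (hG : ∀ s, g (e s) = ∑ r, G r s • e r) :
    FF (φ ∘ₗ symMap a g) e w = FF φ e (fun r => ∑ s, G r s • w s) := by
  classical
  have h1 : ∀ f : Fin a → Fin 3, (φ ∘ₗ symMap a g) (SymmetricPower.tprod ℂ (fun i => e (f i))) =
      ∑ h : Fin a → Fin 3, (∏ i, G (h i) (f i)) *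
        φ (SymmetricPower.tprod ℂ (fun i => e (h i))) := by
    intro f
    rw [LinearMap.comp_apply, symMap_tprod]
    have h2 : (fun i => g (e (f i))) = fun i => ∑ r, G r (f i) • e r := by
      funext i; rw [hG]
    rw [h2]
    have h3 := MultilinearMap.map_sum (φ.compMultilinearMap
      (SymmetricPower.tprod ℂ (ι := Fin a) (M := V))) (fun (i : Fin a) (r : Fin 3) => G r (f i) • e r)
    rw [LinearMap.compMultilinearMap_apply] at h3
    rw [h3]
    apply Finset.sum_congr rfl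
    intro h _
    rw [MultilinearMap.map_smul_univ, LinearMap.compMultilinearMap_apply, smul_eq_mul]
  unfold FF
  simp only [h1, Finset.prod_univ_sum, Fintype.piFinset_univ, Finset.sum_smul, Finset.smul_sum]
  rw [Finset.sum_comm]
  apply Finset.sum_congr rfl
  intro h _
  apply Finset.sum_congr rfl
  intro f _
  have h4 : ∏ i, G (h i) (f i) • w (f i) = (∏ i, G (h i) (f i)) • ∏ i, w (f i) := by
    rw [Finset.prod_smul]
  rw [h4, smul_smul, mul_comm]

lemma FF_symEval (ξ : Fin a → Module.Dual ℂ V) (e : Fin 3 → V) (w : Fin 3 → A) :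
    FF (symEval ξ) e w =
      (Fintype.card (Equiv.Perm (Fin a)) : ℂ) • ∏ i, ∑ s, ξ i (e s) • w s := by
  classical
  unfold FF
  have h1 : ∀ π : Equiv.Perm (Fin a), ∑ f : Fin a → Fin 3,
      (∏ i, ξ i (e (f (π i)))) • ∏ i, w (f i) = ∏ i, ∑ s, ξ i (e s) • w s := by
    intro π
    rw [Finset.prod_univ_sum, Fintype.piFinset_univ,
      ← Equiv.sum_comp (Equiv.arrowCongr π.symm (Equiv.refl (Fin 3)))
        (fun f : Fin a → Fin 3 => ∏ i, ξ i (e (f i)) • w (f i))]
    apply Finset.sum_congr rfl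
    intro f _
    have h2 : ∏ i, w (f i) = ∏ i, w (f (π i)) := (Equiv.prod_comp π (fun i => w (f i))).symm
    rw [h2, Finset.prod_smul]
    rfl
  simp only [symEval_tprod, Finset.sum_smul]
  rw [Finset.sum_comm]
  rw [Finset.sum_congr rfl (fun π _ => h1 π), Finset.sum_const, Finset.card_univ]
  rw [← Nat.cast_smul_eq_nsmul ℂ]

lemma FF_add (φ ψ : Module.Dual ℂ (Sym[ℂ]^a V)) (e : Fin 3 → V) (w : Fin 3 → A) :
    FF (φ + ψ) e w = FF φ e w + FF ψ e w := by
  unfold FF
  rw [← Finset.sum_add_distrib]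
  apply Finset.sum_congr rfl
  intro f _
  rw [LinearMap.add_apply, add_smul]

lemma FF_evalPow (ξ : Module.Dual ℂ V) (e : Fin 3 → V) (w : Fin 3 → A) :
    FF (evalPow a ξ) e w = (∑ s, ξ (e s) • w s) ^ a := by
  classical
  unfold FF
  have h1 : (∑ s, ξ (e s) • w s) ^ a = ∏ _i : Fin a, ∑ s, ξ (e s) • w s := by
    rw [Finset.prod_const, Finset.card_univ, Fintype.card_fin]
  rw [h1, Finset.prod_univ_sum, Fintype.piFinset_univ]
  apply Finset.sum_congr rfl
  intro f _
  rw [evalPow_tprod, Finset.prod_smul]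

end

section

open PowerSeries

variable {V : Type u} [AddCommGroup V] [Module ℂ V] [FiniteDimensional ℂ V] {a : ℕ}

/-- The point `(1, X, Y)`. -/
noncomputable def ww : Fin 3 → Polynomial ℂ⟦X⟧ :=
  ![1, Polynomial.C X, Polynomial.X]

omit [FiniteDimensional ℂ V] in
lemma isH_FF (e : Fin 3 → V) (w : Fin 3 → Polynomial ℂ⟦X⟧) (k j : ℕ) :
    IsH 1 (fun φ : Module.Dual ℂ (Sym[ℂ]^a V) => coeff j ((FF φ e w).coeff k)) := by
  refine (IsH.lin (∑ f : Fin a → Fin 3, coeff j ((∏ i, w (f i)).coeff k) •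
    SymmetricPower.tprod ℂ (fun i => e (f i)))).congr fun φ => ?_
  unfold FF
  rw [Polynomial.finsetSum_coeff, map_sum, map_sum]
  apply Finset.sum_congr rfl
  intro f _
  rw [map_smul, smul_eq_mul, Polynomial.coeff_smul, PowerSeries.coeff_smul, smul_eq_mul, mul_comm]

end

end Vale.Agent.P181.Z463
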