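import Vale.Agent.P181.Z.H463.Ideal

set_option autoImplicit false

/-!
Homogeneous polynomial functions on the dual space as values of elements of symmetric powers.
-/

open scoped TensorProduct

namespace Vale.Agent.P181.Z463

open Vale.Agent.P181 Vale.Agent.P181.H280 Vale.Agent.P181.H54 Vale.Agent.P181.FR

universe u

variable {M : Type u} [AddCommGroup M] [Module ℂ M] [Module.Finite ℂ M]

/-- `F` is a homogeneous polynomial function of degree `e`. -/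
def IsH (e : ℕ) (F : Module.Dual ℂ M → ℂ) : Prop :=
  ∃ y : Sym[ℂ]^e M, ∀ φ, symEval (fun _ => φ) y = F φ

omit [Module.Finite ℂ M] in
lemma IsH.congr {e : ℕ} {F G : Module.Dual ℂ M → ℂ} (h : IsH e F) (hFG : ∀ φ, F φ = G φ) :
    IsH e G := by
  obtain ⟨y, hy⟩ := h
  exact ⟨y, fun φ => (hy φ).trans (hFG φ)⟩

omit [Module.Finite ℂ M] in
lemma IsH.cast {e e' : ℕ} {F : Module.Dual ℂ M → ℂ} (h : IsH e F) (he : e = e') : IsH e' F := by
  subst he
  exact h

omit [Module.Finite ℂ M] in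
lemma IsH.add {e : ℕ} {F G : Module.Dual ℂ M → ℂ} (hF : IsH e F) (hG : IsH e G) :
    IsH e (fun φ => F φ + G φ) := by
  obtain ⟨y, hy⟩ := hF
  obtain ⟨z, hz⟩ := hG
  exact ⟨y + z, fun φ => by rw [map_add, hy, hz]⟩

omit [Module.Finite ℂ M] in
lemma IsH.smul {e : ℕ} {F : Module.Dual ℂ M → ℂ} (c : ℂ) (hF : IsH e F) :
    IsH e (fun φ => c * F φ) := by
  obtain ⟨y, hy⟩ := hF
  exact ⟨c • y, fun φ => by rw [map_smul, hy, smul_eq_mul]⟩

omit [Module.Finite ℂ M] in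
lemma IsH.zero (e : ℕ) : IsH e (fun _ : Module.Dual ℂ M => (0 : ℂ)) :=
  ⟨0, fun φ => by rw [map_zero]⟩

omit [Module.Finite ℂ M] in
lemma IsH.sum {ι : Type*} {e : ℕ} (s : Finset ι) (F : ι → Module.Dual ℂ M → ℂ)
    (h : ∀ i ∈ s, IsH e (F i)) : IsH e (fun φ => ∑ i ∈ s, F i φ) := by
  classical
  induction s using Finset.induction_on with
  | empty => exact (IsH.zero e).congr fun φ => by simp
  | insert i s hi ih =>
    refine ((h i (Finset.mem_insert_self _ _)).add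
      (ih fun j hj => h j (Finset.mem_insert_of_mem hj))).congr fun φ => ?_
    rw [Finset.sum_insert hi]

omit [Module.Finite ℂ M] in
lemma IsH.mul {e e' : ℕ} {F G : Module.Dual ℂ M → ℂ} (hF : IsH e F) (hG : IsH e' G) :
    IsH (e + e') (fun φ => F φ * G φ) := by
  obtain ⟨x, hx⟩ := hF
  obtain ⟨y, hy⟩ := hG
  obtain ⟨L, hL⟩ := exists_mul (M := M) (b := e) (B := e') y
  refine ⟨(((Fintype.card (Equiv.Perm (Fin e)) : ℂ) * (Fintype.card (Equiv.Perm (Fin e')) : ℂ)) /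
    (Fintype.card (Equiv.Perm (Fin (e + e'))) : ℂ)) • L x, fun φ => ?_⟩
  rw [map_smul, smul_eq_mul, div_mul_eq_mul_div, hL φ x, hx, hy,
    mul_div_cancel_left₀ _ (fac_ne _), mul_comm]

omit [Module.Finite ℂ M] in
lemma IsH.lin (m : M) : IsH 1 (fun φ : Module.Dual ℂ M => φ m) :=
  ⟨SymmetricPower.tprod ℂ (fun _ : Fin 1 => m), fun φ => by
    rw [symEval_const_tprod]; simp⟩

/-- `c ^ k * q` is a homogeneous polynomial of degree `e` where `c ≠ 0`. -/
def RR (c : Module.Dual ℂ M → ℂ) (e k : ℕ) (q : Module.Dual ℂ M → ℂ) : Prop :=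
  ∃ F : Module.Dual ℂ M → ℂ, IsH e F ∧ ∀ φ, c φ ≠ 0 → F φ = c φ ^ k * q φ

section RR

variable {c : Module.Dual ℂ M → ℂ}

omit [Module.Finite ℂ M] in
lemma RR.congr {e k : ℕ} {q q' : Module.Dual ℂ M → ℂ} (h : RR c e k q)
    (hq : ∀ φ, c φ ≠ 0 → q φ = q' φ) : RR c e k q' := by
  obtain ⟨F, hF, h1⟩ := h
  exact ⟨F, hF, fun φ hφ => by rw [h1 φ hφ, hq φ hφ]⟩

omit [Module.Finite ℂ M] in
lemma RR.cast {e k e' k' : ℕ} {q : Module.Dual ℂ M → ℂ} (h : RR c e k q) (he : e = e')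
    (hk : k = k') : RR c e' k' q := by
  subst he hk
  exact h

omit [Module.Finite ℂ M] in
lemma RR.of {e : ℕ} {q : Module.Dual ℂ M → ℂ} (h : IsH e q) : RR c e 0 q :=
  ⟨q, h, fun φ _ => by rw [pow_zero, one_mul]⟩

omit [Module.Finite ℂ M] in
lemma RR.add {e k : ℕ} {q q' : Module.Dual ℂ M → ℂ} (h : RR c e k q) (h' : RR c e k q') :
    RR c e k (fun φ => q φ + q' φ) := by
  obtain ⟨F, hF, h1⟩ := h
  obtain ⟨G, hG, h2⟩ := h'
  exact ⟨_, hF.add hG, fun φ hφ => by rw [h1 φ hφ, h2 φ hφ, mul_add]⟩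

omit [Module.Finite ℂ M] in
lemma RR.smul {e k : ℕ} {q : Module.Dual ℂ M → ℂ} (z : ℂ) (h : RR c e k q) :
    RR c e k (fun φ => z * q φ) := by
  obtain ⟨F, hF, h1⟩ := h
  exact ⟨_, hF.smul z, fun φ hφ => by rw [h1 φ hφ]; ring⟩

omit [Module.Finite ℂ M] in
lemma RR.zero (e k : ℕ) : RR c e k (fun _ => (0 : ℂ)) :=
  ⟨_, IsH.zero e, fun φ _ => by rw [mul_zero]⟩

omit [Module.Finite ℂ M] in
lemma RR.sum {ι : Type*} {e k : ℕ} (s : Finset ι) (q : ι → Module.Dual ℂ M → ℂ)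
    (h : ∀ i ∈ s, RR c e k (q i)) : RR c e k (fun φ => ∑ i ∈ s, q i φ) := by
  classical
  induction s using Finset.induction_on with
  | empty => exact (RR.zero e k).congr fun φ _ => by simp
  | insert i s hi ih =>
    refine ((h i (Finset.mem_insert_self _ _)).add
      (ih fun j hj => h j (Finset.mem_insert_of_mem hj))).congr fun φ _ => ?_
    rw [Finset.sum_insert hi]

omit [Module.Finite ℂ M] in
lemma RR.mul {e k e' k' : ℕ} {q q' : Module.Dual ℂ M → ℂ} (h : RR c e k q) (h' : RR c e' k' q') :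
    RR c (e + e') (k + k') (fun φ => q φ * q' φ) := by
  obtain ⟨F, hF, h1⟩ := h
  obtain ⟨G, hG, h2⟩ := h'
  exact ⟨_, hF.mul hG, fun φ hφ => by rw [h1 φ hφ, h2 φ hφ, pow_add]; ring⟩

omit [Module.Finite ℂ M] in
lemma RR.shift {e k : ℕ} {q : Module.Dual ℂ M → ℂ} (hc : IsH 1 c) (h : RR c e k q) (i : ℕ) :
    RR c (e + i) (k + i) q := by
  induction i with
  | zero => exact h
  | succ i ih =>
    obtain ⟨F, hF, h1⟩ := ih
    exact ⟨_, hF.mul hc, fun φ hφ => by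
      rw [h1 φ hφ, ← add_assoc k i 1, pow_succ]; ring⟩

end RR

end Vale.Agent.P181.Z463
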