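import Vale.Agent.P181.Z.H463.Rich

set_option autoImplicit false

/-!
# P181, [Z]: from the highest weight vectors of weight `theta0` to highest weight vectors in the
kernel of the Foulkes-Howe map of weight `theta0 + kp`
-/

open scoped TensorProduct

namespace Vale.Agent.P181.Z463

open Vale.Agent.P181 Vale.Agent.P181.H280 Vale.Agent.P181.H54 Vale.Agent.P181.FR
  Vale.Agent.P181.T4 Vale.Agent.P181.H530.Torus

/-- The value at a functional. -/
noncomputable def vl {b a m : ℕ} (φ : Module.Dual ℂ (Sym[ℂ]^a (Fin m → ℂ))) :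
    Pleth b a m →ₗ[ℂ] ℂ := symEval (fun _ : Fin b => φ)

/-- The product. -/
noncomputable def mulP {b B a m : ℕ} (y : Pleth B a m) : Pleth b a m →ₗ[ℂ] Pleth (b + B) a m :=
  (exists_mul (M := Sym[ℂ]^a (Fin m → ℂ)) (b := b) (B := B) y).choose

lemma vl_mulP {b B a m : ℕ} (φ : Module.Dual ℂ (Sym[ℂ]^a (Fin m → ℂ))) (y : Pleth B a m)
    (x : Pleth b a m) :
    (Fintype.card (Equiv.Perm (Fin b)) : ℂ) * (Fintype.card (Equiv.Perm (Fin B)) : ℂ) *
        vl φ (mulP y x) =
      (Fintype.card (Equiv.Perm (Fin (b + B))) : ℂ) * (vl φ y * vl φ x) :=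
  (exists_mul (M := Sym[ℂ]^a (Fin m → ℂ)) (b := b) (B := B) y).choose_spec φ x

lemma vl_inj {b a m : ℕ} {x y : Pleth b a m} (h : ∀ φ, vl φ x = vl φ y) : x = y := by
  let x' : Sym[ℂ]^b (Sym[ℂ]^a (Fin m → ℂ)) := x
  let y' : Sym[ℂ]^b (Sym[ℂ]^a (Fin m → ℂ)) := y
  have h1 : x' - y' = 0 := by
    apply pv_inj
    intro φ
    rw [map_sub, sub_eq_zero]
    exact h φ
  exact eq_of_sub_zero' h1

lemma vl_act {b a m : ℕ} (φ : Module.Dual ℂ (Sym[ℂ]^a (Fin m → ℂ)))
    (g : Matrix (Fin m) (Fin m) ℂ) (x : Pleth b a m) :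
    vl φ (plethAct b a m g x) = vl (φ ∘ₗ symMap a (Matrix.toLin' g)) x := by
  exact H54.symEval_symMap b (symMap a (Matrix.toLin' g)) (fun _ : Fin b => φ) x

lemma eq_of_vl_mul {b B a m : ℕ} {z z' : Pleth (b + B) a m}
    (h : ∀ φ, (Fintype.card (Equiv.Perm (Fin b)) : ℂ) * (Fintype.card (Equiv.Perm (Fin B)) : ℂ) *
      vl φ z = (Fintype.card (Equiv.Perm (Fin b)) : ℂ) *
        (Fintype.card (Equiv.Perm (Fin B)) : ℂ) * vl φ z') : z = z' :=
  vl_inj fun φ => mul_left_cancel₀ (mul_ne_zero (fac_ne _) (fac_ne _)) (h φ)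

lemma mulP_act {b B a m : ℕ} (g : Matrix (Fin m) (Fin m) ℂ) (y : Pleth B a m)
    (x : Pleth b a m) :
    plethAct (b + B) a m g (mulP y x) = mulP (plethAct B a m g y) (plethAct b a m g x) := by
  apply eq_of_vl_mul
  intro φ
  rw [vl_mulP, vl_act, vl_mulP, vl_act, vl_act]

lemma mulP_add {b B a m : ℕ} (y y' : Pleth B a m) (x : Pleth b a m) :
    mulP (y + y') x = mulP y x + mulP y' x := by
  apply eq_of_vl_mul
  intro φ
  rw [vl_mulP, map_add, map_add, mul_add, vl_mulP, vl_mulP]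
  ring

lemma mulP_smul {b B a m : ℕ} (c : ℂ) (y : Pleth B a m) (x : Pleth b a m) :
    mulP (c • y) x = c • mulP y x := by
  apply eq_of_vl_mul
  intro φ
  rw [vl_mulP, map_smul, map_smul, smul_eq_mul, smul_eq_mul]
  have h := vl_mulP φ y x
  linear_combination (-c) * h

lemma mulP_zero {b B a m : ℕ} (x : Pleth b a m) :
    mulP (0 : Pleth B a m) x = 0 := by
  apply eq_of_vl_mul
  intro φ
  rw [vl_mulP, map_zero, map_zero]
  ring

lemma mulP_eq_zero {b B a m : ℕ} {y : Pleth B a m} (hy : y ≠ 0) {x : Pleth b a m}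
    (h : mulP y x = 0) : x = 0 := by
  apply pv_domain (M := Sym[ℂ]^a (Fin m → ℂ)) x y hy
  intro φ
  have h1 := vl_mulP φ y x
  rw [h, map_zero, mul_zero] at h1
  exact (mul_eq_zero.1 h1.symm).resolve_left (fac_ne _)

lemma mulP_ker {b B a m : ℕ} {y : Pleth B a m}
    (hy : foulkesHowe B a (Fin m → ℂ) y = 0) (x : Pleth b a m) :
    foulkesHowe (b + B) a (Fin m → ℂ) (mulP y x) = 0 := by
  refine (foulkesHowe_eq_zero_iff (V := Fin m → ℂ) (b + B) a (mulP y x)).2 ?_
  intro ξ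
  have h1 := vl_mulP (symEval ξ) y x
  have h2 : vl (symEval ξ) y = 0 := (foulkesHowe_eq_zero_iff B a y).1 hy ξ
  rw [h2, zero_mul, mul_zero] at h1
  exact (mul_eq_zero.1 h1).resolve_left (mul_ne_zero (fac_ne _) (fac_ne _))

lemma mulP_TW {b B a m : ℕ} {mu nu : Fin m → ℕ} {y : Pleth B a m} {x : Pleth b a m}
    (hy : y ∈ TW B a m nu) (hx : x ∈ TW b a m mu) : mulP y x ∈ TW (b + B) a m (mu + nu) := by
  intro d hd
  rw [mulP_act, hy d hd, hx d hd, mulP_smul, map_smul, smul_smul]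
  congr 1
  rw [← Finset.prod_mul_distrib]
  exact Finset.prod_congr rfl fun i _ => by rw [Pi.add_apply, pow_add, mul_comm]

/-- The projection to a weight, general form. -/
lemma span_TW {b a m : ℕ} {ι : Type*} (z : ι → Pleth b a m) (w : ι → Fin m → ℕ)
    (F : Finset (Fin m → ℕ)) (hF : ∀ i, w i ∈ F) (hz : ∀ i, z i ∈ TW b a m (w i))
    {θ : Fin m → ℕ} {x : Pleth b a m} (hx : x ∈ Submodule.span ℂ (Set.range z))
    (hT : x ∈ TW b a m θ) : x ∈ Submodule.span ℂ (z '' {i | w i = θ}) := by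
  classical
  obtain ⟨d, hd, hsep⟩ := exists_sep (insert θ F)
  let ch : (Fin m → ℕ) → ℂ := fun ν => ∏ i, d i ^ ν i
  let C : Finset ℂ := (F.image ch).erase (ch θ)
  let p : Polynomial ℂ := ∏ c ∈ C, (Polynomial.X - Polynomial.C c)
  have hp0 : p.eval (ch θ) ≠ 0 := by
    rw [Polynomial.eval_prod]
    refine Finset.prod_ne_zero_iff.2 fun c hc => ?_
    rw [Polynomial.eval_sub, Polynomial.eval_X, Polynomial.eval_C, sub_ne_zero]
    exact (Finset.ne_of_mem_erase hc).symm
  let T : Module.End ℂ (Pleth b a m) := plethAct b a m (Matrix.diagonal d)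
  have h1 : Polynomial.aeval T p x = p.eval (ch θ) • x := aeval_eig T (hT d hd) p
  have h2 : Polynomial.aeval T p x ∈ Submodule.span ℂ (z '' {i | w i = θ}) := by
    refine Submodule.span_induction (p := fun x _ => Polynomial.aeval T p x ∈
      Submodule.span ℂ (z '' {i | w i = θ})) ?_ ?_ ?_ ?_ hx
    · rintro _ ⟨i, rfl⟩
      rw [aeval_eig T (hz i d hd) p]
      by_cases h : w i = θ
      · exact Submodule.smul_mem _ _ (Submodule.subset_span ⟨i, h, rfl⟩)
      · have h3 : p.eval (ch (w i)) = 0 := by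
          rw [Polynomial.eval_prod]
          refine Finset.prod_eq_zero (i := ch (w i)) ?_ ?_
          · rw [Finset.mem_erase]
            refine ⟨fun he => h ?_, Finset.mem_image_of_mem _ (hF i)⟩
            exact hsep _ (Finset.mem_insert_of_mem (hF i)) _ (Finset.mem_insert_self _ _) he
          · rw [Polynomial.eval_sub, Polynomial.eval_X, Polynomial.eval_C, sub_self]
        change p.eval (ch (w i)) • z i ∈ _
        rw [h3, zero_smul]
        exact Submodule.zero_mem _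
    · rw [map_zero]
      exact Submodule.zero_mem _
    · intro x y _ _ hx hy
      rw [map_add]
      exact Submodule.add_mem _ hx hy
    · intro c x _ hx
      rw [map_smul]
      exact Submodule.smul_mem _ c hx
  rw [h1] at h2
  have h3 := Submodule.smul_mem _ (p.eval (ch θ))⁻¹ h2
  rwa [smul_smul, inv_mul_cancel₀ hp0, one_smul] at h3

/-- **(59's (A))** From highest weight vectors of weight `theta0` to highest weight vectors in a
Borel-stable ideal, general form. -/
theorem exists_KH_of_hw' {n N a B : ℕ} {ka : Fin n → ℕ} (hka : ∑ i, ka i = B * a)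
    {y : Pleth B a n} (hy0 : y ≠ 0) (hy1 : foulkesHowe B a (Fin n → ℂ) y = 0)
    (hy2 : y ∈ TW B a n ka) (theta0 : Fin n → ℕ) :
    ∃ kp : Fin n → ℕ, Dom kp ka ∧
      plethMult N a n theta0 ≤ ((N + B) * a + 1) ^ (n * n + n) *
        Module.finrank ℂ (KH (N + B) a n (theta0 + kp)) := by
  classical
  let U : Submodule ℂ (Pleth B a n) :=
    (LinearMap.ker (foulkesHowe B a (Fin n → ℂ)) : Submodule ℂ (Pleth B a n)) ⊓
      SP B a n (DS B a n ka)
  have hyU : y ∈ U := ⟨LinearMap.mem_ker.2 hy1, TW_le_SP B a n ka hy2⟩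
  have hU : ∀ g, IsBorel g → ∀ u ∈ U, plethAct B a n g u ∈ U :=
    fun g hg u hu => ⟨ker_borel B a n g hg u hu.1, SP_borel DS_down hg hu.2⟩
  let Z : Set (Pleth (N + B) a n) :=
    {z | ∃ u ∈ U, ∃ v ∈ hwSpace theta0 (plethAct N a n), z = mulP u v}
  let E : Submodule ℂ (Pleth (N + B) a n) := Submodule.span ℂ Z
  have hE : ∀ g, IsBorel g → ∀ x ∈ E, plethAct (N + B) a n g x ∈ E := by
    intro g hg x hx
    refine Submodule.span_induction (p := fun x _ => plethAct (N + B) a n g x ∈ E)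
      ?_ ?_ ?_ ?_ hx
    · rintro _ ⟨u, hu, v, hv, rfl⟩
      rw [mulP_act, hv g hg, map_smul]
      exact Submodule.smul_mem _ _ (Submodule.subset_span ⟨_, hU g hg u hu, v, hv, rfl⟩)
    · rw [map_zero]
      exact Submodule.zero_mem _
    · intro x y _ _ hx hy
      rw [map_add]
      exact Submodule.add_mem _ hx hy
    · intro c x _ hx
      rw [map_smul]
      exact Submodule.smul_mem _ c hx
  have hEker : ∀ x ∈ E, foulkesHowe (N + B) a (Fin n → ℂ) x = 0 := by
    intro x hx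
    have h1 : E ≤ (LinearMap.ker (foulkesHowe (N + B) a (Fin n → ℂ)) :
        Submodule ℂ (Pleth (N + B) a n)) := by
      refine Submodule.span_le.2 ?_
      rintro _ ⟨u, hu, v, hv, rfl⟩
      exact LinearMap.mem_ker.2 (mulP_ker (LinearMap.mem_ker.1 hu.1) v)
    exact LinearMap.mem_ker.1 (h1 hx)
  -- the spanning family of weight vectors
  let ι : Type := {f : Fin B → Fin a → Fin n // f ∈ DS B a n ka} ×
    hwSpace theta0 (plethAct N a n)
  let z : ι → Pleth (N + B) a n := fun i => mulP (eb i.1.1) (i.2 : Pleth N a n)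
  let w : ι → Fin n → ℕ := fun i => theta0 + wf i.1.1
  let F : Finset (Fin n → ℕ) :=
    Finset.univ.image (fun f : Fin B → Fin a → Fin n => theta0 + wf f)
  have hF : ∀ i, w i ∈ F := fun i => Finset.mem_image_of_mem _ (Finset.mem_univ i.1.1)
  have hz : ∀ i, z i ∈ TW (N + B) a n (w i) := fun i =>
    mulP_TW (eb_mem_TW i.1.1) (hw_le_TW N a n theta0 i.2.2)
  have hEz : E ≤ Submodule.span ℂ (Set.range z) := by
    refine Submodule.span_le.2 ?_
    rintro _ ⟨u, hu, v, hv, rfl⟩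
    refine Submodule.span_induction (p := fun u _ => mulP u v ∈ Submodule.span ℂ (Set.range z))
      ?_ ?_ ?_ ?_ hu.2
    · rintro _ ⟨f, hf, rfl⟩
      exact Submodule.subset_span ⟨(⟨f, hf⟩, ⟨v, hv⟩), rfl⟩
    · rw [mulP_zero]
      exact Submodule.zero_mem _
    · intro x y _ _ hx hy
      rw [mulP_add]
      exact Submodule.add_mem _ hx hy
    · intro c x _ hx
      rw [mulP_smul]
      exact Submodule.smul_mem _ c hx
  obtain ⟨theta, hth⟩ := rich E hE
  have h1 : plethMult N a n theta0 ≤ Module.finrank ℂ E :=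
    finrank_le_of_inj (mulP y : Pleth N a n →ₗ[ℂ] Pleth (N + B) a n) _ _
      (fun x hx => Submodule.subset_span ⟨y, hyU, x, hx, rfl⟩)
      (fun x _ hx => mulP_eq_zero hy0 hx)
  have h2 : Module.finrank ℂ ↥(E ⊓ hwSpace theta (plethAct (N + B) a n)) ≤
      Module.finrank ℂ (KH (N + B) a n theta) :=
    finrank_le_of_inj (LinearMap.id : Pleth (N + B) a n →ₗ[ℂ] Pleth (N + B) a n) _ _
      (fun x hx => ⟨LinearMap.mem_ker.2 (hEker x hx.1), hx.2⟩) (fun x _ hx => hx)
  by_cases hex : ∃ x ∈ E ⊓ hwSpace theta (plethAct (N + B) a n), x ≠ 0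
  · obtain ⟨x, hx, hx0⟩ := hex
    have h3 := span_TW z w F hF hz (hEz hx.1) (hw_le_TW (N + B) a n theta hx.2)
    have h4 : ({i | w i = theta} : Set ι).Nonempty := by
      by_contra hne
      rw [Set.not_nonempty_iff_eq_empty] at hne
      rw [hne, Set.image_empty, Submodule.span_empty, Submodule.mem_bot] at h3
      exact hx0 h3
    obtain ⟨i, hi⟩ := h4
    have hi' : theta0 + wf i.1.1 = theta := hi
    refine ⟨wf i.1.1, ⟨?_, i.1.2⟩, ?_⟩
    · rw [sum_wf, hka]
    · rw [hi']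
      exact h1.trans (hth.trans (Nat.mul_le_mul_left _ h2))
  · push Not at hex
    refine ⟨ka, Dom.refl ka, ?_⟩
    have h3 : Module.finrank ℂ ↥(E ⊓ hwSpace theta (plethAct (N + B) a n)) = 0 := by
      have h4 : E ⊓ hwSpace theta (plethAct (N + B) a n) = ⊥ := by
        rw [eq_bot_iff]
        intro x hx
        rw [Submodule.mem_bot]
        exact hex x hx
      rw [h4]
      exact finrank_bot ℂ (Pleth (N + B) a n)
    rw [h3, mul_zero] at hth
    rw [Nat.le_zero.1 (h1.trans hth)]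
    exact Nat.zero_le _

/-- **(59's (A))** with the equation. -/
theorem exists_KH_of_hw (n N : ℕ) {a : ℕ} (ha : 2 ≤ a) (theta0 : Fin (n + 3) → ℕ) :
    ∃ kp : Fin (n + 3) → ℕ, ∑ i, kp i = (a + 4) * a ∧ Dom kp (kap n a) ∧
      plethMult N a (n + 3) theta0 ≤
        ((N + (a + 4)) * a + 1) ^ ((n + 3) * (n + 3) + (n + 3)) *
        Module.finrank ℂ (KH (N + (a + 4)) a (n + 3) (theta0 + kp)) := by
  obtain ⟨y, hy0, hy1, hy2⟩ := exists_eqT n a ha
  obtain ⟨kp, h1, h2⟩ := exists_KH_of_hw' (N := N) (sum_kap n ha) hy0 hy1 hy2 theta0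
  exact ⟨kp, h1.1.trans (sum_kap n ha), h1, h2⟩

end Vale.Agent.P181.Z463
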