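import Vale.Agent.P181.Z.H463.Ev

set_option autoImplicit false

/-!
The equation vanishes at products of linear forms.
-/

namespace Vale.Agent.P181.Z463

open PowerSeries

lemma integ_inv_sq {α β : ℂ} (hα : α ≠ 0) :
    integ ((C α + C β * X : ℂ⟦X⟧)⁻¹ ^ 2) = C α⁻¹ * (X * (C α + C β * X : ℂ⟦X⟧)⁻¹) := by
  set p : ℂ⟦X⟧ := C α + C β * X with hp
  have hc : constantCoeff p ≠ 0 := by
    rw [hp]; simpa using hα
  have hpi : p * p⁻¹ = 1 := PowerSeries.mul_inv_cancel p hc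
  have hd : PowerSeries.derivative ℂ p = C β := by
    rw [hp, map_add, PowerSeries.derivative_C, zero_add, Derivation.leibniz,
      PowerSeries.derivative_C, PowerSeries.derivative_X]
    simp
  apply integ_eq
  · rw [Derivation.leibniz, PowerSeries.derivative_C, Derivation.leibniz,
      PowerSeries.derivative_inv', PowerSeries.derivative_X, hd]
    simp only [smul_eq_mul, mul_zero, add_zero]
    have hCC : (C α⁻¹ : ℂ⟦X⟧) * C α = 1 := by rw [← map_mul, inv_mul_cancel₀ hα, map_one]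
    have h1 : (p : ℂ⟦X⟧) - C β * X = C α := by rw [hp]; ring
    calc C α⁻¹ * (X * (-p⁻¹ ^ 2 * C β) + p⁻¹ * 1)
        = C α⁻¹ * (p⁻¹ ^ 2 * (p * p⁻¹ * 0 + (p - C β * X)) + p⁻¹ * (1 - p * p⁻¹)) := by ring
      _ = C α⁻¹ * (p⁻¹ ^ 2 * C α) := by rw [hpi, h1]; ring
      _ = p⁻¹ ^ 2 * (C α⁻¹ * C α) := by ring
      _ = p⁻¹ ^ 2 := by rw [hCC, mul_one]
  · simp

/-- One more linear factor. -/
lemma step_prod {α β γ : ℂ} (hα : α ≠ 0) (E0 E1 E2 : ℂ⟦X⟧) (hE : constantCoeff E0 ≠ 0) :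
    ((C α + C β * X) * E0) * integ ((((C α + C β * X) * E1 + C γ * E0) ^ 2 -
      2 * ((C α + C β * X) * E0) * ((C α + C β * X) * E2 + C γ * E1)) *
        ((C α + C β * X) * E0)⁻¹ ^ 2) =
    (C α + C β * X) * (E0 * integ ((E1 ^ 2 - 2 * E0 * E2) * E0⁻¹ ^ 2)) +
      C (γ ^ 2 * α⁻¹) * (X * E0) := by
  have hint := integ_inv_sq (β := β) hα
  set p : ℂ⟦X⟧ := C α + C β * X with hp
  have hc : constantCoeff p ≠ 0 := by
    rw [hp]; simpa using hα
  have hpi : p * p⁻¹ = 1 := PowerSeries.mul_inv_cancel p hc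
  have hEi : E0 * E0⁻¹ = 1 := PowerSeries.mul_inv_cancel E0 hE
  rw [PowerSeries.mul_inv_rev]
  have h1 : ((p * E1 + C γ * E0) ^ 2 - 2 * (p * E0) * (p * E2 + C γ * E1)) *
      (E0⁻¹ * p⁻¹) ^ 2 = (E1 ^ 2 - 2 * E0 * E2) * E0⁻¹ ^ 2 + C (γ ^ 2) * p⁻¹ ^ 2 := by
    rw [map_pow]
    calc ((p * E1 + C γ * E0) ^ 2 - 2 * (p * E0) * (p * E2 + C γ * E1)) * (E0⁻¹ * p⁻¹) ^ 2
        = (E1 ^ 2 - 2 * E0 * E2) * E0⁻¹ ^ 2 * (p * p⁻¹) ^ 2 +
          (C γ) ^ 2 * p⁻¹ ^ 2 * (E0 * E0⁻¹) ^ 2 := by ring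
      _ = _ := by rw [hpi, hEi]; ring
  rw [h1, integ_add, integ_C_mul, hint, map_mul (C (R := ℂ)) (γ ^ 2) α⁻¹]
  calc p * E0 * (integ ((E1 ^ 2 - 2 * E0 * E2) * E0⁻¹ ^ 2) +
        C (γ ^ 2) * (C α⁻¹ * (X * p⁻¹)))
      = p * (E0 * integ ((E1 ^ 2 - 2 * E0 * E2) * E0⁻¹ ^ 2)) +
        C (γ ^ 2) * C α⁻¹ * (X * E0) * (p * p⁻¹) := by ring
    _ = _ := by rw [hpi, mul_one]

lemma coeff_lin_mul (α β : ℂ) (f : ℂ⟦X⟧) (j : ℕ) :
    coeff (j + 1) ((C α + C β * X) * f) = α * coeff (j + 1) f + β * coeff j f := by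
  have h1 : (C α + C β * X) * f = C α * f + C β * (X * f) := by ring
  rw [h1, map_add, coeff_C_mul, coeff_C_mul, coeff_succ_X_mul]

/-- The product of linear forms. -/
noncomputable def PP {ι : Type*} (s : Finset ι) (α β γ : ι → ℂ) : Polynomial ℂ⟦X⟧ :=
  ∏ i ∈ s, (Polynomial.C (C (α i) + C (β i) * X) + Polynomial.C (C (γ i)) * Polynomial.X)

lemma PP_insert {ι : Type*} [DecidableEq ι] {s : Finset ι} {i : ι} (hi : i ∉ s)
    (α β γ : ι → ℂ) :
    (PP (insert i s) α β γ).coeff 0 = (C (α i) + C (β i) * X) * (PP s α β γ).coeff 0 ∧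
    ∀ k, (PP (insert i s) α β γ).coeff (k + 1) =
      (C (α i) + C (β i) * X) * (PP s α β γ).coeff (k + 1) + C (γ i) * (PP s α β γ).coeff k := by
  have h1 : PP (insert i s) α β γ = Polynomial.C (C (α i) + C (β i) * X) * PP s α β γ +
      Polynomial.C (C (γ i)) * (Polynomial.X * PP s α β γ) := by
    rw [PP, Finset.prod_insert hi, ← PP]; ring
  constructor
  · rw [h1, Polynomial.coeff_add, Polynomial.coeff_C_mul, Polynomial.coeff_C_mul,
      Polynomial.coeff_X_mul_zero, mul_zero, add_zero]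
  · intro k
    rw [h1, Polynomial.coeff_add, Polynomial.coeff_C_mul, Polynomial.coeff_C_mul,
      Polynomial.coeff_X_mul]

lemma constantCoeff_PP {ι : Type*} (s : Finset ι) (α β γ : ι → ℂ) :
    constantCoeff ((PP s α β γ).coeff 0) = ∏ i ∈ s, α i := by
  classical
  induction s using Finset.induction_on with
  | empty => rw [PP]; simp
  | insert i s hi ih =>
    rw [(PP_insert hi α β γ).1, map_mul, ih, Finset.prod_insert hi]
    simp

lemma key_prod {ι : Type*} (s : Finset ι) (α β γ : ι → ℂ) (hα : ∀ i ∈ s, α i ≠ 0) :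
    (∀ j, s.card < j → coeff j ((PP s α β γ).coeff 0) = 0) ∧
    ∀ j, s.card < j → coeff j ((PP s α β γ).coeff 0 *
      integ (((PP s α β γ).coeff 1 ^ 2 - 2 * (PP s α β γ).coeff 0 * (PP s α β γ).coeff 2) *
        ((PP s α β γ).coeff 0)⁻¹ ^ 2)) = 0 := by
  classical
  induction s using Finset.induction_on with
  | empty =>
    have h1 : (PP (∅ : Finset ι) α β γ) = 1 := by rw [PP, Finset.prod_empty]
    rw [h1]
    have h2 : integ (0 : ℂ⟦X⟧) = 0 := by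
      apply integ_eq
      · rw [map_zero]
      · rw [map_zero]
    constructor
    · intro j hj
      rw [Polynomial.coeff_one_zero, coeff_one, if_neg]
      exact Nat.ne_of_gt hj
    · intro j hj
      simp [Polynomial.coeff_one, h2]
  | insert i s hi ih =>
    have hs : ∀ i ∈ s, α i ≠ 0 := fun j hj => hα j (Finset.mem_insert_of_mem hj)
    obtain ⟨h1, h2⟩ := ih hs
    have hE : constantCoeff ((PP s α β γ).coeff 0) ≠ 0 := by
      rw [constantCoeff_PP]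
      exact Finset.prod_ne_zero_iff.2 hs
    rw [(PP_insert hi α β γ).1, (PP_insert hi α β γ).2 0, (PP_insert hi α β γ).2 1,
      Finset.card_insert_of_notMem hi]
    constructor
    · intro j hj
      obtain ⟨j, rfl⟩ : ∃ k, j = k + 1 := ⟨j - 1, by omega⟩
      rw [coeff_lin_mul, h1 (j + 1) (by omega), h1 j (by omega), mul_zero, mul_zero, add_zero]
    · intro j hj
      obtain ⟨j, rfl⟩ : ∃ k, j = k + 1 := ⟨j - 1, by omega⟩
      rw [step_prod (hα i (Finset.mem_insert_self _ _)) _ _ _ hE, map_add, coeff_lin_mul,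
        h2 (j + 1) (by omega), h2 j (by omega), coeff_C_mul, coeff_succ_X_mul,
        h1 j (by omega)]
      ring

/-- The equation vanishes at products of `a` linear forms. -/
theorem ev_prod (a : ℕ) (α β γ : Fin a → ℂ) (κ : ℂ) (E : ℕ → ℂ⟦X⟧)
    (hE : ∀ k, E k = C κ * (PP Finset.univ α β γ).coeff k) (h0 : coeff 0 (E 0) ≠ 0) :
    ev a (E 0) (E 1) (E 2) = 0 := by
  have h1 : κ * ∏ i, α i ≠ 0 := by
    rw [hE, coeff_C_mul, coeff_zero_eq_constantCoeff_apply, constantCoeff_PP] at h0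
    exact h0
  have hκ : κ ≠ 0 := left_ne_zero_of_mul h1
  have hα : ∀ i ∈ (Finset.univ : Finset (Fin a)), α i ≠ 0 :=
    Finset.prod_ne_zero_iff.1 (right_ne_zero_of_mul h1)
  have h2 := (key_prod Finset.univ α β γ hα).2 (a + 1) (by simp)
  have hκκ : (C κ : ℂ⟦X⟧) * (C κ)⁻¹ = 1 := by
    apply PowerSeries.mul_inv_cancel
    simpa using hκ
  rw [ev, hE, hE, hE]
  set F0 := (PP Finset.univ α β γ).coeff 0 with hF0
  set F1 := (PP Finset.univ α β γ).coeff 1 with hF1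
  set F2 := (PP Finset.univ α β γ).coeff 2 with hF2
  have h3 : ((C κ * F1) ^ 2 - 2 * (C κ * F0) * (C κ * F2)) * (C κ * F0)⁻¹ ^ 2 =
      (F1 ^ 2 - 2 * F0 * F2) * F0⁻¹ ^ 2 := by
    rw [PowerSeries.mul_inv_rev]
    calc ((C κ * F1) ^ 2 - 2 * (C κ * F0) * (C κ * F2)) * (F0⁻¹ * (C κ)⁻¹) ^ 2
        = (F1 ^ 2 - 2 * F0 * F2) * F0⁻¹ ^ 2 * (C κ * (C κ)⁻¹) ^ 2 := by ring
      _ = _ := by rw [hκκ]; ring
  rw [h3, mul_assoc, coeff_C_mul, h2, mul_zero]

end Vale.Agent.P181.Z463
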