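import Vale.Agent.P181.Z.H463.Tor
import Vale.Agent.P181.H530.Torus3
import Vale.Agent.P181.Z.H188.Pos

set_option autoImplicit false

/-!
# P181, [Z]: highest weight vectors in the kernel of the Foulkes-Howe map, from torus weights
-/

open scoped TensorProduct

namespace Vale.Agent.P181.Z463

open Vale.Agent.P181 Vale.Agent.P181.H280 Vale.Agent.P181.H54 Vale.Agent.P181.FR
  Vale.Agent.P181.T4 Vale.Agent.P181.H530.Torus

lemma sum_wf_filter {b a m : ℕ} (f : Fin b → Fin a → Fin m) (r : ℕ) :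
    ∑ x ∈ Finset.univ.filter (fun x : Fin m => r ≤ (x : ℕ)), wf f x =
      ∑ j, ∑ i, if r ≤ (f j i : ℕ) then 1 else 0 := by
  unfold wf
  rw [Finset.sum_comm]
  refine Finset.sum_congr rfl fun j _ => ?_
  rw [Finset.sum_comm]
  refine Finset.sum_congr rfl fun i _ => ?_
  rw [Finset.sum_ite_eq]
  simp only [Finset.mem_filter, Finset.mem_univ, true_and]

lemma sum_wf {b a m : ℕ} (f : Fin b → Fin a → Fin m) : ∑ x, wf f x = b * a := by
  have h1 := sum_wf_filter f 0
  simp only [Nat.zero_le, if_true, Finset.filter_true] at h1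
  rw [h1]
  simp

/-- The products of basis vectors whose weight is dominating. -/
def DS (b a m : ℕ) (mu : Fin m → ℕ) : Set (Fin b → Fin a → Fin m) :=
  {f | ∀ r : ℕ, ∑ x ∈ Finset.univ.filter (fun x : Fin m => r ≤ (x : ℕ)), wf f x ≤
    ∑ x ∈ Finset.univ.filter (fun x : Fin m => r ≤ (x : ℕ)), mu x}

lemma DS_down {b a m : ℕ} {mu : Fin m → ℕ} : ∀ f ∈ DS b a m mu,
    ∀ f' : Fin b → Fin a → Fin m, (∀ j i, f' j i ≤ f j i) → f' ∈ DS b a m mu := by
  intro f hf f' hle r
  refine le_trans ?_ (hf r)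
  rw [sum_wf_filter, sum_wf_filter]
  refine Finset.sum_le_sum fun j _ => Finset.sum_le_sum fun i _ => ?_
  by_cases h : r ≤ (f' j i : ℕ)
  · rw [if_pos h, if_pos (h.trans (hle j i))]
  · rw [if_neg h]
    exact Nat.zero_le _

lemma SP_mono {b a m : ℕ} {S S' : Set (Fin b → Fin a → Fin m)} (h : S ⊆ S') :
    SP b a m S ≤ SP b a m S' := Submodule.span_mono (Set.image_mono h)

lemma TW_le_SP (b a m : ℕ) (mu : Fin m → ℕ) : TW b a m mu ≤ SP b a m (DS b a m mu) := by
  intro x hx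
  have h1 : x ∈ SP b a m Set.univ := by
    rw [SP_univ]
    exact Submodule.mem_top
  refine SP_mono ?_ (SP_TW h1 hx)
  rintro f ⟨-, hf⟩ r
  rw [hf]

/-- **Torus weights to highest weights inside a Borel-stable subspace.** -/
theorem rich_TW {b a m : ℕ} (K : Submodule ℂ (Pleth b a m))
    (hK : ∀ g, IsBorel g → ∀ x ∈ K, plethAct b a m g x ∈ K) (mu : Fin m → ℕ)
    (htot : ∑ i, mu i = b * a) :
    ∃ theta : Fin m → ℕ, Dom theta mu ∧
      Module.finrank ℂ ↥(K ⊓ TW b a m mu) ≤ (b * a + 1) ^ (m * m + m) *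
        Module.finrank ℂ ↥(K ⊓ hwSpace theta (plethAct b a m)) := by
  classical
  set E : Submodule ℂ (Pleth b a m) := K ⊓ SP b a m (DS b a m mu) with hE
  have hEs : ∀ g, IsBorel g → ∀ x ∈ E, plethAct b a m g x ∈ E :=
    fun g hg x hx => ⟨hK g hg x hx.1, SP_borel DS_down hg hx.2⟩
  obtain ⟨theta, hth⟩ := rich E hEs
  have h1 : Module.finrank ℂ ↥(K ⊓ TW b a m mu) ≤ Module.finrank ℂ E :=
    finrank_le_of_inj (LinearMap.id : Pleth b a m →ₗ[ℂ] Pleth b a m) _ _
      (fun x hx => ⟨hx.1, TW_le_SP b a m mu hx.2⟩) (fun x _ hx => hx)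
  have h2 : Module.finrank ℂ ↥(E ⊓ hwSpace theta (plethAct b a m)) ≤
      Module.finrank ℂ ↥(K ⊓ hwSpace theta (plethAct b a m)) :=
    finrank_le_of_inj (LinearMap.id : Pleth b a m →ₗ[ℂ] Pleth b a m) _ _
      (fun x hx => ⟨hx.1.1, hx.2⟩) (fun x _ hx => hx)
  by_cases hex : ∃ x ∈ E ⊓ hwSpace theta (plethAct b a m), x ≠ 0
  · obtain ⟨x, hx, hx0⟩ := hex
    refine ⟨theta, ?_, h1.trans (hth.trans (Nat.mul_le_mul_left _ h2))⟩
    have h3 := SP_TW hx.1.2 (hw_le_TW b a m theta hx.2)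
    have h4 : ({f | f ∈ DS b a m mu ∧ wf f = theta} : Set (Fin b → Fin a → Fin m)).Nonempty := by
      by_contra hne
      rw [Set.not_nonempty_iff_eq_empty] at hne
      rw [hne, SP, Set.image_empty, Submodule.span_empty, Submodule.mem_bot] at h3
      exact hx0 h3
    obtain ⟨f, hf, rfl⟩ := h4
    refine ⟨?_, hf⟩
    rw [sum_wf, htot]
  · push Not at hex
    refine ⟨mu, Dom.refl mu, ?_⟩
    have h3 : Module.finrank ℂ ↥(E ⊓ hwSpace theta (plethAct b a m)) = 0 := by
      have h4 : E ⊓ hwSpace theta (plethAct b a m) = ⊥ := by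
        rw [eq_bot_iff]
        intro x hx
        rw [Submodule.mem_bot]
        exact hex x hx
      rw [h4]
      exact finrank_bot ℂ (Pleth b a m)
    rw [h3, mul_zero] at hth
    rw [Nat.le_zero.1 (h1.trans hth)]
    exact Nat.zero_le _

lemma ker_borel (b a m : ℕ) : ∀ g, IsBorel g → ∀ x ∈ (LinearMap.ker
    (foulkesHowe b a (Fin m → ℂ)) : Submodule ℂ (Pleth b a m)), plethAct b a m g x ∈
      (LinearMap.ker (foulkesHowe b a (Fin m → ℂ)) : Submodule ℂ (Pleth b a m)) := by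
  intro g _ x hx
  have h1 : foulkesHowe b a (Fin m → ℂ) (symMap b (symMap a (Matrix.toLin' g)) x) =
      symMap a (symMap b (Matrix.toLin' g)) (foulkesHowe b a (Fin m → ℂ) x) :=
    LinearMap.congr_fun (foulkesHowe_equivariant b a (Matrix.toLin' g)) x
  have h2 : foulkesHowe b a (Fin m → ℂ) x = 0 := hx
  rw [h2, map_zero] at h1
  exact h1

lemma sum_kap (n : ℕ) {a : ℕ} (ha : 2 ≤ a) : ∑ i, kap n a i = (a + 4) * a := by
  rw [Fin.sum_univ_succ, Fin.sum_univ_succ, Fin.sum_univ_succ]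
  have h1 : ∑ i : Fin n, kap n a i.succ.succ.succ = 0 := by
    refine Finset.sum_eq_zero fun i _ => ?_
    rw [kap, if_neg, if_neg, if_neg]
    · simp only [Fin.val_succ]; omega
    · simp only [Fin.val_succ]; omega
    · simp only [Fin.val_succ]; omega
  have e3 : kap n a 0 = a ^ 2 + 3 * a - 2 := rfl
  have e4 : kap n a (Fin.succ 0) = a := rfl
  have e5 : kap n a (Fin.succ (Fin.succ 0)) = 2 := rfl
  rw [h1, e3, e4, e5]
  have h2 : 2 ≤ a ^ 2 + 3 * a := by nlinarith
  zify [h2]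
  ring

/-- **Lower bound for the kernel.** -/
theorem exists_KH {n N a : ℕ} (ha : 2 ≤ a) (mu : Fin (n + 3) → ℕ) :
    ∃ theta : Fin (n + 3) → ℕ, Dom theta (mu + kap n a) ∧
      (MS (n + 3) N a mu).ncard ≤ ((N + (a + 4)) * a + 1) ^ ((n + 3) * (n + 3) + (n + 3)) *
        Module.finrank ℂ (KH (N + (a + 4)) a (n + 3) theta) := by
  classical
  rcases Set.eq_empty_or_nonempty (MS (n + 3) N a mu) with h | ⟨s, hs⟩
  · refine ⟨mu + kap n a, Dom.refl _, ?_⟩
    rw [h, Set.ncard_empty]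
    exact Nat.zero_le _
  · obtain ⟨y, hy0, hy1, hy2⟩ := exists_eqT n a ha
    obtain ⟨L, hL0, hL1, hL2⟩ := exists_mul_ker (b := N) y hy0
    have htot : ∑ i, (mu + kap n a) i = (N + (a + 4)) * a := by
      have h1 := MS_total hs
      have h2 : ∑ i, kap n a i = (a + 4) * a := sum_kap n ha
      rw [Finset.sum_congr rfl (fun i _ => Pi.add_apply mu (kap n a) i), Finset.sum_add_distrib,
        h1, h2]
      ring
    obtain ⟨theta, hd, hth⟩ := rich_TW _ (ker_borel (N + (a + 4)) a (n + 3)) (mu + kap n a) htot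
    refine ⟨theta, hd, ?_⟩
    refine (ncard_le_TW (n + 3) N a mu).trans (le_trans ?_ hth)
    refine finrank_le_of_inj L _ _ (fun x hx => ⟨?_, ?_⟩) (fun x _ hx => hL0 x hx)
    · exact LinearMap.mem_ker.2 (hL1 x (Or.inl hy1))
    · intro d hd'
      rw [hL2 (Matrix.diagonal d) _ _ (hy2 d hd') x (hx d hd')]
      congr 1
      rw [← Finset.prod_mul_distrib]
      exact Finset.prod_congr rfl fun i _ => by rw [Pi.add_apply, pow_add]

end Vale.Agent.P181.Z463
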