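import Vale.Agent.P181.Z.H463.EqT
import Vale.Agent.P181.H530.Torus2
import Vale.Agent.P181.R2.H822.FR9

set_option autoImplicit false

/-!
# P181, [Z]: torus weight spaces of `Sym^b(Sym^a ℂ^m)` and their Borel-stable hulls
-/

open scoped TensorProduct

namespace Vale.Agent.P181.Z463

open Vale.Agent.P181 Vale.Agent.P181.H280 Vale.Agent.P181.H54 Vale.Agent.P181.FR
  Vale.Agent.P181.T4 Vale.Agent.P181.H530.Torus

/-- The vectors of torus weight `mu`. -/
noncomputable def TW (b a m : ℕ) (mu : Fin m → ℕ) : Submodule ℂ (Pleth b a m) where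
  carrier := {x | ∀ d : Fin m → ℂ, (∀ i, d i ≠ 0) →
    plethAct b a m (Matrix.diagonal d) x = (∏ i, d i ^ mu i) • x}
  add_mem' := by
    intro x y hx hy d hd
    rw [map_add, hx d hd, hy d hd, smul_add]
  zero_mem' := by
    intro d _
    rw [map_zero, smul_zero]
  smul_mem' := by
    intro c x hx d hd
    rw [map_smul, hx d hd, smul_comm]

lemma mem_TW {b a m : ℕ} {mu : Fin m → ℕ} {x : Pleth b a m} : x ∈ TW b a m mu ↔
    ∀ d : Fin m → ℂ, (∀ i, d i ≠ 0) →
      plethAct b a m (Matrix.diagonal d) x = (∏ i, d i ^ mu i) • x := Iff.rfl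

lemma diag_borel {m : ℕ} {d : Fin m → ℂ} (hd : ∀ i, d i ≠ 0) : IsBorel (Matrix.diagonal d) :=
  ⟨fun _ _ hij => Matrix.diagonal_apply_ne _ hij.ne', fun i => by
    rw [Matrix.diagonal_apply_eq]; exact hd i⟩

lemma hw_le_TW (b a m : ℕ) (mu : Fin m → ℕ) : hwSpace mu (plethAct b a m) ≤ TW b a m mu := by
  intro x hx d hd
  rw [hx _ (diag_borel hd)]
  simp only [Matrix.diagonal_apply_eq]

lemma evalP_torus {N m a : ℕ} {mu : Fin m → ℕ} {f : MvPolynomial (Fin m × Fin N) ℂ}
    (hf : f ∈ W m N a ∅ mu) (d : Fin m → ℂ) (p : Fin N → Fin m → ℂ) :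
    evalP N m f (fun j => Matrix.vecMul (p j) (Matrix.diagonal d)) =
      (∏ i, d i ^ mu i) * evalP N m f p := by
  rw [evalP_apply, evalP_apply, MvPolynomial.eval_eq', MvPolynomial.eval_eq', Finset.mul_sum]
  refine Finset.sum_congr rfl fun v hv => ?_
  have h1 := (hf.2.1 v (MvPolynomial.mem_support_iff.1 hv)).1
  have h2 : ∏ q : Fin m × Fin N, (Matrix.vecMul (p q.2) (Matrix.diagonal d)) q.1 ^ v q =
      (∏ i, d i ^ mu i) * ∏ q : Fin m × Fin N, p q.2 q.1 ^ v q := by
    have h3 : ∏ i, d i ^ mu i = ∏ q : Fin m × Fin N, d q.1 ^ v q := by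
      rw [Fintype.prod_prod_type]
      refine Finset.prod_congr rfl fun i _ => ?_
      rw [← h1 i]
      exact (Finset.prod_pow_eq_pow_sum Finset.univ (fun j => v (i, j)) (d i)).symm
    rw [h3, ← Finset.prod_mul_distrib]
    refine Finset.prod_congr rfl fun q _ => ?_
    rw [Matrix.vecMul_diagonal, mul_pow, mul_comm]
  rw [h2]
  ring

/-- The torus weight spaces are at least as large as the number of multisets of letters. -/
theorem ncard_le_TW (m N a : ℕ) (mu : Fin m → ℕ) :
    (MS m N a mu).ncard ≤ Module.finrank ℂ (TW N a m mu) := by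
  rw [← finrank_W_empty]
  let v : Fin (Module.finrank ℂ (W m N a ∅ mu)) → W m N a ∅ mu :=
    Module.finBasis ℂ (W m N a ∅ mu)
  have hv : LinearIndependent ℂ v := (Module.finBasis ℂ (W m N a ∅ mu)).linearIndependent
  have hex : ∀ i, ∃ x : Pleth N a m, ptvL N a m x =
      evalP N m (v i : MvPolynomial (Fin m × Fin N) ℂ) := by
    intro i
    apply exists_ptvL
    · exact evalP_mem (mem_ColS.1 (W_le_ColS (v i).2))
    · intro τ p
      rw [← evalP_ren, (v i).2.1]
  choose x hx using hex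
  have hmem : ∀ i, x i ∈ TW N a m mu := by
    intro i d hd
    apply ptv_sep
    intro p
    rw [ptv_act, ptv_smul, ← ptvL_apply, ← ptvL_apply, hx i]
    exact evalP_torus (v i).2 d p
  have hli : LinearIndependent ℂ x := by
    apply LinearIndependent.of_comp (ptvL N a m)
    have h1 : (ptvL N a m : Pleth N a m → Fn N m) ∘ x =
        fun i => evalP N m (v i : MvPolynomial (Fin m × Fin N) ℂ) := funext hx
    rw [h1]
    have h2 : LinearMap.ker ((evalP N m).domRestrict (W m N a ∅ mu)) = ⊥ := by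
      rw [LinearMap.ker_eq_bot']
      intro f hf
      rw [LinearMap.domRestrict_apply] at hf
      apply Subtype.ext
      apply evalP_inj (B := N) (m := m)
      rw [Submodule.coe_zero, map_zero, hf]
    have h4 := hv.map' _ h2
    have h5 : ((evalP N m).domRestrict (W m N a ∅ mu) : W m N a ∅ mu → Fn N m) ∘ v =
        fun i => evalP N m (v i : MvPolynomial (Fin m × Fin N) ℂ) :=
      funext fun i => LinearMap.domRestrict_apply _ _ _
    rw [h5] at h4
    exact h4
  have h3 := card_le_finrank_sub (TW N a m mu) x hmem hli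
  rwa [Fintype.card_fin] at h3

/-! ### The monomial spanning set -/

/-- The product of basis vectors. -/
noncomputable def eb {b a m : ℕ} (f : Fin b → Fin a → Fin m) : Pleth b a m :=
  (SymmetricPower.tprod ℂ (fun j => SymmetricPower.tprod ℂ (fun i =>
    (Pi.single (f j i) 1 : Fin m → ℂ))) : Sym[ℂ]^b (Sym[ℂ]^a (Fin m → ℂ)))

lemma pure_eq_sum {b a m : ℕ} (v : Fin b → Fin a → Fin m → ℂ) :
    (SymmetricPower.tprod ℂ (fun j => SymmetricPower.tprod ℂ (v j)) :
      Sym[ℂ]^b (Sym[ℂ]^a (Fin m → ℂ))) =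
      ∑ f : Fin b → Fin a → Fin m, (∏ j, ∏ i, v j i (f j i)) •
        (eb f : Sym[ℂ]^b (Sym[ℂ]^a (Fin m → ℂ))) := by
  classical
  have h1 : ∀ j, (SymmetricPower.tprod ℂ (v j) : Sym[ℂ]^a (Fin m → ℂ)) =
      ∑ h : Fin a → Fin m, (∏ i, v j i (h i)) • SymmetricPower.tprod ℂ (fun i =>
        (Pi.single (h i) 1 : Fin m → ℂ)) := by
    intro j
    have h2 : v j = fun i => ∑ k, v j i k • (Pi.single k 1 : Fin m → ℂ) := by
      funext i
      exact (pi_eq_sum_univ' (v j i)).trans (Finset.sum_congr rfl fun k _ => by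
        congr 1)
    conv_lhs => rw [h2]
    rw [MultilinearMap.map_sum]
    refine Finset.sum_congr rfl fun h _ => ?_
    exact MultilinearMap.map_smul_univ _ (fun i => v j i (h i)) _
  have h3 : (fun j => (SymmetricPower.tprod ℂ (v j) : Sym[ℂ]^a (Fin m → ℂ))) =
      fun j => ∑ h : Fin a → Fin m, (∏ i, v j i (h i)) • SymmetricPower.tprod ℂ (fun i =>
        (Pi.single (h i) 1 : Fin m → ℂ)) := funext h1
  rw [h3, MultilinearMap.map_sum]
  refine Finset.sum_congr rfl fun f _ => ?_
  exact MultilinearMap.map_smul_univ _ (fun j => ∏ i, v j i (f j i)) _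

/-- The weight of a product of basis vectors. -/
def wf {b a m : ℕ} (f : Fin b → Fin a → Fin m) (k : Fin m) : ℕ :=
  ∑ j, ∑ i, if f j i = k then 1 else 0

lemma plethAct_eb {b a m : ℕ} (g : Matrix (Fin m) (Fin m) ℂ) (f : Fin b → Fin a → Fin m) :
    plethAct b a m g (eb f) =
      ∑ f' : Fin b → Fin a → Fin m, (∏ j, ∏ i, g (f' j i) (f j i)) • (eb f' : Pleth b a m) := by
  have h1 : plethAct b a m g (eb f) =
      (SymmetricPower.tprod ℂ (fun j => SymmetricPower.tprod ℂ (fun i =>
        (fun k => g k (f j i) : Fin m → ℂ))) : Sym[ℂ]^b (Sym[ℂ]^a (Fin m → ℂ))) := by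
    change symMap b (symMap a (Matrix.toLin' g)) (SymmetricPower.tprod ℂ (fun j =>
      SymmetricPower.tprod ℂ (fun i => (Pi.single (f j i) 1 : Fin m → ℂ)))) = _
    rw [symMap_tprod]
    congr 1
    funext j
    rw [symMap_tprod]
    congr 1
    funext i
    rw [Matrix.toLin'_apply, Matrix.mulVec_single_one]
    rfl
  rw [h1]
  exact pure_eq_sum _

lemma eb_mem_TW {b a m : ℕ} (f : Fin b → Fin a → Fin m) : (eb f : Pleth b a m) ∈ TW b a m (wf f) := by
  classical
  intro d _
  rw [plethAct_eb, Finset.sum_eq_single f]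
  · congr 1
    unfold wf
    simp only [Matrix.diagonal_apply_eq]
    have h1 : ∀ k, d k ^ (∑ j, ∑ i, if f j i = k then 1 else 0) =
        ∏ j : Fin b, ∏ i : Fin a, d k ^ (if f j i = k then 1 else 0) := by
      intro k
      refine (Finset.prod_pow_eq_pow_sum Finset.univ
        (fun j => ∑ i, if f j i = k then 1 else 0) (d k)).symm.trans ?_
      exact Finset.prod_congr rfl fun j _ =>
        (Finset.prod_pow_eq_pow_sum Finset.univ (fun i => if f j i = k then 1 else 0) (d k)).symm
    have h2 : ∏ k, d k ^ (∑ j, ∑ i, if f j i = k then 1 else 0) =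
        ∏ k, ∏ j : Fin b, ∏ i : Fin a, d k ^ (if f j i = k then 1 else 0) :=
      Finset.prod_congr rfl fun k _ => h1 k
    have h6 : ∏ k, ∏ j : Fin b, ∏ i : Fin a, d k ^ (if f j i = k then 1 else 0) =
        ∏ j, ∏ i, d (f j i) := by
      rw [Finset.prod_comm]
      refine Finset.prod_congr rfl fun j _ => ?_
      rw [Finset.prod_comm]
      refine Finset.prod_congr rfl fun i _ => ?_
      rw [Finset.prod_eq_single (f j i)]
      · rw [if_pos rfl, pow_one]
      · intro k _ hk
        rw [if_neg (Ne.symm hk), pow_zero]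
      · intro h
        exact absurd (Finset.mem_univ _) h
    exact (h2.trans h6).symm
  · intro f' _ hne
    have h2 : ∃ j i, f' j i ≠ f j i := by
      by_contra h
      push Not at h
      exact hne (funext fun j => funext fun i => h j i)
    obtain ⟨j, i, hji⟩ := h2
    have h3 : Matrix.diagonal d (f' j i) (f j i) = 0 := Matrix.diagonal_apply_ne d hji
    have h4 : ∏ i, Matrix.diagonal d (f' j i) (f j i) = 0 :=
      Finset.prod_eq_zero (Finset.mem_univ i) h3
    have h5 : ∏ j, ∏ i, Matrix.diagonal d (f' j i) (f j i) = 0 :=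
      Finset.prod_eq_zero (Finset.mem_univ j) h4
    rw [h5, zero_smul]
  · intro h
    exact absurd (Finset.mem_univ _) h

/-- The span of the products of basis vectors with a condition. -/
noncomputable def SP (b a m : ℕ) (S : Set (Fin b → Fin a → Fin m)) : Submodule ℂ (Pleth b a m) :=
  Submodule.span ℂ (eb '' S)

lemma SP_univ (b a m : ℕ) : SP b a m Set.univ = ⊤ := by
  have h1 := span_pure (V := Fin m → ℂ) b a
  let S' : Submodule ℂ (Sym[ℂ]^b (Sym[ℂ]^a (Fin m → ℂ))) := SP b a m Set.univ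
  have h2 : S' = ⊤ := by
    rw [eq_top_iff, ← h1, Submodule.span_le]
    rintro _ ⟨v, rfl⟩
    dsimp only
    rw [pure_eq_sum]
    refine Submodule.sum_mem S' fun f _ => ?_
    have h5 : (eb f : Pleth b a m) ∈ SP b a m Set.univ :=
      Submodule.subset_span ⟨f, Set.mem_univ _, rfl⟩
    exact Submodule.smul_mem S' _ h5
  exact h2

lemma SP_borel {b a m : ℕ} {S : Set (Fin b → Fin a → Fin m)}
    (hS : ∀ f ∈ S, ∀ f', (∀ j i, f' j i ≤ f j i) → f' ∈ S) {g : Matrix (Fin m) (Fin m) ℂ}
    (hg : IsBorel g) {x : Pleth b a m} (hx : x ∈ SP b a m S) : plethAct b a m g x ∈ SP b a m S := by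
  refine Submodule.span_induction (p := fun x _ => plethAct b a m g x ∈ SP b a m S) ?_ ?_ ?_ ?_ hx
  · rintro _ ⟨f, hf, rfl⟩
    rw [plethAct_eb]
    refine Submodule.sum_mem _ fun f' _ => ?_
    by_cases h : ∀ j i, f' j i ≤ f j i
    · exact Submodule.smul_mem _ _ (Submodule.subset_span ⟨f', hS f hf f' h, rfl⟩)
    · push Not at h
      obtain ⟨j, i, hji⟩ := h
      have h3 : g (f' j i) (f j i) = 0 := hg.1 _ _ hji
      have h4 : ∏ i, g (f' j i) (f j i) = 0 := Finset.prod_eq_zero (Finset.mem_univ i) h3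
      have h5 : ∏ j, ∏ i, g (f' j i) (f j i) = 0 := Finset.prod_eq_zero (Finset.mem_univ j) h4
      rw [h5, zero_smul]
      exact Submodule.zero_mem _
  · rw [map_zero]
    exact Submodule.zero_mem _
  · intro x y _ _ hx hy
    rw [map_add]
    exact Submodule.add_mem _ hx hy
  · intro c x _ hx
    rw [map_smul]
    exact Submodule.smul_mem _ c hx

lemma aeval_eig {M : Type*} [AddCommMonoid M] [Module ℂ M] (T : Module.End ℂ M) {x : M} {c : ℂ}
    (h : T x = c • x) (p : Polynomial ℂ) : Polynomial.aeval T p x = p.eval c • x := by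
  induction p using Polynomial.induction_on' with
  | add p q hp hq => rw [map_add, LinearMap.add_apply, hp, hq, Polynomial.eval_add, add_smul]
  | monomial k r =>
    rw [Polynomial.aeval_monomial, Polynomial.eval_monomial, Module.End.mul_apply,
      Module.algebraMap_end_apply, mul_smul]
    congr 1
    induction k with
    | zero => rw [pow_zero, pow_zero, one_smul]; rfl
    | succ k ih => rw [pow_succ', Module.End.mul_apply, ih, map_smul, h, smul_smul, pow_succ]

lemma exists_sep {m : ℕ} (F : Finset (Fin m → ℕ)) : ∃ d : Fin m → ℂ, (∀ i, d i ≠ 0) ∧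
    ∀ ν ∈ F, ∀ ν' ∈ F, ∏ i, d i ^ ν i = ∏ i, d i ^ ν' i → ν = ν' := by
  classical
  let mo : (Fin m → ℕ) → MvPolynomial (Fin m) ℂ := fun ν => ∏ i, MvPolynomial.X i ^ ν i
  have hmo : ∀ ν, mo ν = MvPolynomial.monomial (Finsupp.equivFunOnFinite.symm ν) 1 := by
    intro ν
    rw [MvPolynomial.monomial_eq, MvPolynomial.C_1, one_mul, Finsupp.prod_fintype _ _
      (fun _ => pow_zero _)]
    rfl
  have hinj : ∀ ν ν', ν ≠ ν' → mo ν - mo ν' ≠ 0 := by
    intro ν ν' hne h
    rw [sub_eq_zero, hmo, hmo] at h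
    have h1 := MvPolynomial.monomial_left_injective (R := ℂ) one_ne_zero h
    exact hne (Finsupp.equivFunOnFinite.symm.injective h1)
  let Q : MvPolynomial (Fin m) ℂ := (∏ i, MvPolynomial.X i) *
    ∏ q ∈ (F ×ˢ F).filter (fun q => q.1 ≠ q.2), (mo q.1 - mo q.2)
  have hQ : Q ≠ 0 := by
    refine mul_ne_zero (Finset.prod_ne_zero_iff.2 fun i _ => MvPolynomial.X_ne_zero i)
      (Finset.prod_ne_zero_iff.2 fun q hq => hinj _ _ (Finset.mem_filter.1 hq).2)
  have hd : ∃ d : Fin m → ℂ, MvPolynomial.eval d Q ≠ 0 := by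
    by_contra h
    push Not at h
    exact hQ (MvPolynomial.funext fun d => by rw [h d, map_zero])
  obtain ⟨d, hd⟩ := hd
  rw [map_mul, map_prod, map_prod] at hd
  have h1 := Finset.prod_ne_zero_iff.1 (left_ne_zero_of_mul hd)
  have h2 := Finset.prod_ne_zero_iff.1 (right_ne_zero_of_mul hd)
  refine ⟨d, fun i => by simpa using h1 i (Finset.mem_univ i), ?_⟩
  intro ν hν ν' hν' he
  by_contra hne
  apply h2 (ν, ν') (Finset.mem_filter.2 ⟨Finset.mem_product.2 ⟨hν, hν'⟩, hne⟩)
  rw [map_sub, sub_eq_zero]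
  have h3 : ∀ ν, MvPolynomial.eval d (mo ν) = ∏ i, d i ^ ν i := by
    intro ν
    rw [map_prod]
    exact Finset.prod_congr rfl fun i _ => by rw [map_pow, MvPolynomial.eval_X]
  rw [h3, h3]
  exact he

/-- The projection to a weight. -/
lemma SP_TW {b a m : ℕ} {S : Set (Fin b → Fin a → Fin m)} {θ : Fin m → ℕ} {x : Pleth b a m}
    (hx : x ∈ SP b a m S) (hT : x ∈ TW b a m θ) : x ∈ SP b a m {f | f ∈ S ∧ wf f = θ} := by
  classical
  obtain ⟨d, hd, hsep⟩ := exists_sep (insert θ (Finset.univ.image (fun f : Fin b → Fin a → Fin m => wf f)))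
  let ch : (Fin m → ℕ) → ℂ := fun ν => ∏ i, d i ^ ν i
  let C : Finset ℂ := (Finset.univ.image (fun f : Fin b → Fin a → Fin m => ch (wf f))).erase (ch θ)
  let p : Polynomial ℂ := ∏ c ∈ C, (Polynomial.X - Polynomial.C c)
  have hp0 : p.eval (ch θ) ≠ 0 := by
    rw [Polynomial.eval_prod]
    refine Finset.prod_ne_zero_iff.2 fun c hc => ?_
    rw [Polynomial.eval_sub, Polynomial.eval_X, Polynomial.eval_C, sub_ne_zero]
    exact (Finset.ne_of_mem_erase hc).symm
  let T : Module.End ℂ (Pleth b a m) := plethAct b a m (Matrix.diagonal d)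
  have h1 : Polynomial.aeval T p x = p.eval (ch θ) • x := aeval_eig T (hT d hd) p
  have h2 : Polynomial.aeval T p x ∈ SP b a m {f | f ∈ S ∧ wf f = θ} := by
    refine Submodule.span_induction (p := fun x _ => Polynomial.aeval T p x ∈
      SP b a m {f | f ∈ S ∧ wf f = θ}) ?_ ?_ ?_ ?_ hx
    · rintro _ ⟨f, hf, rfl⟩
      rw [aeval_eig T (eb_mem_TW f d hd) p]
      by_cases h : wf f = θ
      · exact Submodule.smul_mem _ _ (Submodule.subset_span ⟨f, ⟨hf, h⟩, rfl⟩)
      · have h3 : p.eval (ch (wf f)) = 0 := by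
          rw [Polynomial.eval_prod]
          refine Finset.prod_eq_zero (i := ch (wf f)) ?_ ?_
          · rw [Finset.mem_erase]
            refine ⟨fun he => h ?_, Finset.mem_image_of_mem _ (Finset.mem_univ f)⟩
            exact hsep _ (Finset.mem_insert_of_mem (Finset.mem_image_of_mem _ (Finset.mem_univ f)))
              _ (Finset.mem_insert_self _ _) he
          · rw [Polynomial.eval_sub, Polynomial.eval_X, Polynomial.eval_C, sub_self]
        change p.eval (ch (wf f)) • eb f ∈ _
        rw [h3, zero_smul]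
        exact Submodule.zero_mem _
    · rw [map_zero]
      exact Submodule.zero_mem _
    · intro x y _ _ hx hy
      rw [map_add]
      exact Submodule.add_mem _ hx hy
    · intro c x _ hx
      rw [map_smul]
      exact Submodule.smul_mem _ c hx
  rw [h1] at h2
  have h3 := Submodule.smul_mem _ (p.eval (ch θ))⁻¹ h2
  rwa [smul_smul, inv_mul_cancel₀ hp0, one_smul] at h3

end Vale.Agent.P181.Z463
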